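import Vale.Agent.P195.ResR.Correct

/-!
# P195: the entries of the matrices are morphisms

`Typed g δ` holds the rows whose entry at `h` has the weight of `h → g` and at most its order plus
`δ`.
-/

noncomputable section

namespace Vale.Agent.P195.ResR

open Gen

set_option linter.unusedSimpArgs false
set_option linter.unusedTactic false
set_option linter.unreachableTactic false

/-- The weight from `h` to `g`. -/
abbrev dw (h g : Gen) : ℤ := g.vtx.1 - h.vtx.1

/-- The order from `h` to `g`. -/
abbrev dk (h g : Gen) : ℤ := (g.vtx.2 : ℤ) - h.vtx.2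

/-- Rows of the right types at the source `g`, with the order raised by `δ`. -/
def Typed (g : Gen) (δ : ℤ) : Submodule ℚ Row where
  carrier := {x | ∀ h, x h ∈ F (dw h g) (dk h g + δ)}
  add_mem' hx hy h := add_mem (hx h) (hy h)
  zero_mem' _ := zero_mem _
  smul_mem' c _ hx h := Submodule.smul_mem _ c (hx h)

variable (N : ℕ)

theorem smul_v_mem {g h : Gen} {δ : ℤ} {c : Op} (hc : c ∈ F (dw h g) (dk h g + δ)) :
    c • v N h ∈ Typed g δ := fun h' => by
  unfold v
  split_ifs
  · rw [Finsupp.smul_apply, Finsupp.single_apply]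
    split_ifs with e
    · subst e; simpa using hc
    · simp
  · simp

theorem v_mem {g h : Gen} {δ : ℤ} (hc : (1 : Op) ∈ F (dw h g) (dk h g + δ)) :
    v N h ∈ Typed g δ := by
  simpa using smul_v_mem N hc

theorem one_mem' {k : ℤ} (hk : 0 ≤ k) : (1 : Op) ∈ F 0 k := F_le hk one_mem_F

theorem X₀_mem' {k : ℤ} (hk : 0 ≤ k) : X₀ ∈ F 1 k :=
  F_le hk (by simpa using X₀_mul_mem one_mem_F)

theorem X₁_mem' {k : ℤ} (hk : 0 ≤ k) : X₁ ∈ F 1 k :=
  F_le hk (by simpa using X₁_mul_mem one_mem_F)

theorem D₀_mem' {k : ℤ} (hk : 1 ≤ k) : D₀ ∈ F (-1) k :=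
  F_le hk (by simpa using D₀_mul_mem one_mem_F)

theorem D₁_mem' {k : ℤ} (hk : 1 ≤ k) : D₁ ∈ F (-1) k :=
  F_le hk (by simpa using D₁_mul_mem one_mem_F)

theorem D₀X₀_mem' {k : ℤ} (hk : 1 ≤ k) : D₀ * X₀ ∈ F 0 k :=
  F_le hk (by simpa using D₀_mul_mem (X₀_mul_mem one_mem_F))

theorem D₁X₀_mem' {k : ℤ} (hk : 1 ≤ k) : D₁ * X₀ ∈ F 0 k :=
  F_le hk (by simpa using D₁_mul_mem (X₀_mul_mem one_mem_F))

theorem D₀X₁_mem' {k : ℤ} (hk : 1 ≤ k) : D₀ * X₁ ∈ F 0 k :=
  F_le hk (by simpa using D₀_mul_mem (X₁_mul_mem one_mem_F))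

theorem D₁X₁_mem' {k : ℤ} (hk : 1 ≤ k) : D₁ * X₁ ∈ F 0 k :=
  F_le hk (by simpa using D₁_mul_mem (X₁_mul_mem one_mem_F))

theorem coef_one : (1 : Op) ∈ F 0 0 ∧ (1 : Op) ∈ F 0 1 ∧ (1 : Op) ∈ F 0 2 :=
  ⟨one_mem_F, one_mem' zero_le_one, one_mem' zero_le_two⟩

theorem coef_smul (r : ℚ) : r • (1 : Op) ∈ F 0 0 ∧ r • (1 : Op) ∈ F 0 1 :=
  ⟨Submodule.smul_mem _ r one_mem_F, Submodule.smul_mem _ r coef_one.2.1⟩

theorem X₀D₁_mem : X₀ * D₁ ∈ F 0 1 := by
  simpa using X₀_mul_mem (D₁_mul_mem one_mem_F)

theorem X₁D₁_mem : X₁ * D₁ ∈ F 0 1 := by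
  simpa using X₁_mul_mem (D₁_mul_mem one_mem_F)

theorem dRow_mem (g : Gen) : dRow N g ∈ Typed g 0 := by
  rcases g with i | i | ⟨j, i⟩ | ⟨j, i⟩ | i | i
  any_goals (obtain rfl | rfl : j = 0 ∨ j = 1 := by omega)
  all_goals simp only [dRow, smul_sub, ite_smul, one_smul, zero_smul]
  all_goals repeat' first
    | with_reducible exact zero_mem _
    | with_reducible refine add_mem ?_ ?_
    | with_reducible refine sub_mem ?_ ?_
    | with_reducible refine neg_mem ?_
    | with_reducible refine smul_v_mem N ?_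
    | with_reducible refine v_mem N ?_
    | split_ifs
  all_goals norm_num [dw, dk, vtx]
  all_goals with_reducible first
    | exact X₀_mem' le_rfl
    | exact X₁_mem' le_rfl
    | exact X₁_mem' zero_le_two
    | exact D₀_mem' le_rfl
    | exact D₁_mem' le_rfl
    | exact D₀X₀_mem' le_rfl
    | exact D₁X₀_mem' le_rfl
    | exact D₀X₁_mem' le_rfl
    | exact D₁X₁_mem' le_rfl
    | exact X₀D₁_mem
    | exact X₁D₁_mem
    | exact coef_one.1
    | exact coef_one.2.1
    | exact coef_one.2.2
    | exact (coef_smul _).1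
    | exact (coef_smul _).2

theorem sRow_mem (g : Gen) : sRow N g ∈ Typed g 1 := by
  rcases g with i | i | ⟨j, i⟩ | ⟨j, i⟩ | i | i
  any_goals (obtain rfl | rfl : j = 0 ∨ j = 1 := by omega)
  all_goals simp only [sRow, smul_sub, ite_smul, one_smul, zero_smul]
  all_goals repeat' first
    | with_reducible exact zero_mem _
    | with_reducible refine add_mem ?_ ?_
    | with_reducible refine sub_mem ?_ ?_
    | with_reducible refine neg_mem ?_
    | with_reducible refine smul_v_mem N ?_
    | with_reducible refine v_mem N ?_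
    | split_ifs
  all_goals norm_num [dw, dk, vtx]
  all_goals with_reducible first
    | exact X₀_mem' le_rfl
    | exact X₁_mem' le_rfl
    | exact X₁_mem' zero_le_two
    | exact D₀_mem' le_rfl
    | exact D₁_mem' le_rfl
    | exact D₀X₀_mem' le_rfl
    | exact D₁X₀_mem' le_rfl
    | exact D₀X₁_mem' le_rfl
    | exact D₁X₁_mem' le_rfl
    | exact X₀D₁_mem
    | exact X₁D₁_mem
    | exact coef_one.1
    | exact coef_one.2.1
    | exact coef_one.2.2
    | exact (coef_smul _).1
    | exact (coef_smul _).2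

theorem hRow_mem (g : Gen) : hRow N g ∈ Typed g 1 := by
  rcases g with i | i | ⟨j, i⟩ | ⟨j, i⟩ | i | i
  any_goals (obtain rfl | rfl : j = 0 ∨ j = 1 := by omega)
  all_goals simp only [hRow, smul_sub, ite_smul, one_smul, zero_smul]
  all_goals repeat' first
    | with_reducible exact zero_mem _
    | with_reducible refine add_mem ?_ ?_
    | with_reducible refine sub_mem ?_ ?_
    | with_reducible refine neg_mem ?_
    | with_reducible refine smul_v_mem N ?_
    | with_reducible refine v_mem N ?_
    | split_ifs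
  all_goals norm_num [dw, dk, vtx]
  all_goals with_reducible first
    | exact X₀_mem' le_rfl
    | exact X₁_mem' le_rfl
    | exact X₁_mem' zero_le_two
    | exact D₀_mem' le_rfl
    | exact D₁_mem' le_rfl
    | exact D₀X₀_mem' le_rfl
    | exact D₁X₀_mem' le_rfl
    | exact D₀X₁_mem' le_rfl
    | exact D₁X₁_mem' le_rfl
    | exact X₀D₁_mem
    | exact X₁D₁_mem
    | exact coef_one.1
    | exact coef_one.2.1
    | exact coef_one.2.2
    | exact (coef_smul _).1
    | exact (coef_smul _).2

theorem gRow_mem (g : Gen) : gRow N g ∈ Typed g 1 := by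
  rcases g with i | i | ⟨j, i⟩ | ⟨j, i⟩ | i | i
  any_goals (obtain rfl | rfl : j = 0 ∨ j = 1 := by omega)
  all_goals simp only [gRow, smul_sub, ite_smul, one_smul, zero_smul]
  all_goals repeat' first
    | with_reducible exact zero_mem _
    | with_reducible refine add_mem ?_ ?_
    | with_reducible refine sub_mem ?_ ?_
    | with_reducible refine neg_mem ?_
    | with_reducible refine smul_v_mem N ?_
    | with_reducible refine v_mem N ?_
    | split_ifs
  all_goals norm_num [dw, dk, vtx]
  all_goals with_reducible first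
    | exact X₀_mem' le_rfl
    | exact X₁_mem' le_rfl
    | exact X₁_mem' zero_le_two
    | exact D₀_mem' le_rfl
    | exact D₁_mem' le_rfl
    | exact D₀X₀_mem' le_rfl
    | exact D₁X₀_mem' le_rfl
    | exact D₀X₁_mem' le_rfl
    | exact D₁X₁_mem' le_rfl
    | exact X₀D₁_mem
    | exact X₁D₁_mem
    | exact coef_one.1
    | exact coef_one.2.1
    | exact coef_one.2.2
    | exact (coef_smul _).1
    | exact (coef_smul _).2

theorem thRow_mem (g : Gen) : thRow N g ∈ Typed g 0 := by
  rcases g with i | i | ⟨j, i⟩ | ⟨j, i⟩ | i | i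
  any_goals (obtain rfl | rfl : j = 0 ∨ j = 1 := by omega)
  all_goals simp only [thRow, smul_sub, ite_smul, one_smul, zero_smul]
  all_goals repeat' first
    | with_reducible exact zero_mem _
    | with_reducible refine add_mem ?_ ?_
    | with_reducible refine sub_mem ?_ ?_
    | with_reducible refine neg_mem ?_
    | with_reducible refine smul_v_mem N ?_
    | with_reducible refine v_mem N ?_
    | split_ifs
  all_goals norm_num [dw, dk, vtx]
  all_goals with_reducible first
    | exact X₀_mem' le_rfl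
    | exact X₁_mem' le_rfl
    | exact X₁_mem' zero_le_two
    | exact D₀_mem' le_rfl
    | exact D₁_mem' le_rfl
    | exact D₀X₀_mem' le_rfl
    | exact D₁X₀_mem' le_rfl
    | exact D₀X₁_mem' le_rfl
    | exact D₁X₁_mem' le_rfl
    | exact X₀D₁_mem
    | exact X₁D₁_mem
    | exact coef_one.1
    | exact coef_one.2.1
    | exact coef_one.2.2
    | exact (coef_smul _).1
    | exact (coef_smul _).2

theorem omRow_mem (g : Gen) : omRow N g ∈ Typed g (-1) := by
  rcases g with i | i | ⟨j, i⟩ | ⟨j, i⟩ | i | i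
  any_goals (obtain rfl | rfl : j = 0 ∨ j = 1 := by omega)
  all_goals simp only [omRow, smul_sub, ite_smul, one_smul, zero_smul]
  all_goals repeat' first
    | with_reducible exact zero_mem _
    | with_reducible refine add_mem ?_ ?_
    | with_reducible refine sub_mem ?_ ?_
    | with_reducible refine neg_mem ?_
    | with_reducible refine smul_v_mem N ?_
    | with_reducible refine v_mem N ?_
    | split_ifs
  all_goals norm_num [dw, dk, vtx]
  all_goals with_reducible first
    | exact X₀_mem' le_rfl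
    | exact X₁_mem' le_rfl
    | exact X₁_mem' zero_le_two
    | exact D₀_mem' le_rfl
    | exact D₁_mem' le_rfl
    | exact D₀X₀_mem' le_rfl
    | exact D₁X₀_mem' le_rfl
    | exact D₀X₁_mem' le_rfl
    | exact D₁X₁_mem' le_rfl
    | exact X₀D₁_mem
    | exact X₁D₁_mem
    | exact coef_one.1
    | exact coef_one.2.1
    | exact coef_one.2.2
    | exact (coef_smul _).1
    | exact (coef_smul _).2

theorem lowRow_mem (g : Gen) : lowRow N g ∈ Typed g (-2) := by
  rcases g with i | i | ⟨j, i⟩ | ⟨j, i⟩ | i | i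
  any_goals (obtain rfl | rfl : j = 0 ∨ j = 1 := by omega)
  all_goals simp only [lowRow, smul_sub, ite_smul, one_smul, zero_smul]
  all_goals repeat' first
    | with_reducible exact zero_mem _
    | with_reducible refine add_mem ?_ ?_
    | with_reducible refine sub_mem ?_ ?_
    | with_reducible refine neg_mem ?_
    | with_reducible refine smul_v_mem N ?_
    | with_reducible refine v_mem N ?_
    | split_ifs
  all_goals norm_num [dw, dk, vtx]
  all_goals with_reducible first
    | exact X₀_mem' le_rfl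
    | exact X₁_mem' le_rfl
    | exact X₁_mem' zero_le_two
    | exact D₀_mem' le_rfl
    | exact D₁_mem' le_rfl
    | exact D₀X₀_mem' le_rfl
    | exact D₁X₀_mem' le_rfl
    | exact D₀X₁_mem' le_rfl
    | exact D₁X₁_mem' le_rfl
    | exact X₀D₁_mem
    | exact X₁D₁_mem
    | exact coef_one.1
    | exact coef_one.2.1
    | exact coef_one.2.2
    | exact (coef_smul _).1
    | exact (coef_smul _).2

end Vale.Agent.P195.ResR
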