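import Vale.Agent.P195.ResR.Euler

/-!
# P195: the matrix of the resolution squares to zero
-/

noncomputable section

namespace Vale.Agent.P195.ResR

open Gen

set_option linter.unusedSimpArgs false
set_option linter.unusedVariables false

theorem dd_rho_zero (N i : ℕ) (hN : 2 ≤ N) : d N (d N (v N (rho 0 (i + 1)))) = 0 := by
  rcases i with _ | _ | i
  all_goals
    simp [d_e, d_r, S_r, d_rho N, S_rho N (by omega : 2 ≤ N), d_q N (by omega : 1 ≤ N),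
      S_q N (by omega : 2 ≤ N), d_s, S_s, d_t N (by omega : 2 ≤ N), S_t, S_e N (by omega : 2 ≤ N),
      dRow, sRow, vtx, eul', eul, v_e_zero, v_rho_zero, v_s_zero, smul_smul, smul_sub, smul_add,
      smul_qsmul, smul_assoc, add_smul, sub_smul, mul_add, mul_sub, sub_mul, mul_assoc, D₀X₀, D₁X₁,
      D₀X₁, D₁X₀, X₁X₀, D₀X₀', D₁X₁', D₀X₁', D₁X₀', X₁X₀', D₁D₀, D₁D₀', add_mul]

theorem dd_rho_one (N i : ℕ) (hN : 2 ≤ N) : d N (d N (v N (rho 1 (i + 1)))) = 0 := by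
  rcases i with _ | _ | i
  all_goals
    simp [d_e, d_r, S_r, d_rho N, S_rho N (by omega : 2 ≤ N), d_q N (by omega : 1 ≤ N),
      S_q N (by omega : 2 ≤ N), d_s, S_s, d_t N (by omega : 2 ≤ N), S_t, S_e N (by omega : 2 ≤ N),
      dRow, sRow, vtx, eul', eul, v_e_zero, v_rho_zero, v_s_zero, smul_smul, smul_sub, smul_add,
      smul_qsmul, smul_assoc, add_smul, sub_smul, mul_add, mul_sub, sub_mul, mul_assoc, D₀X₀, D₁X₁,
      D₀X₁, D₁X₀, X₁X₀, D₀X₀', D₁X₁', D₀X₁', D₁X₀', X₁X₀', D₁D₀, D₁D₀', add_mul]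

theorem dd_q_zero (N i : ℕ) (hN : 2 ≤ N) : d N (d N (v N (q 0 i))) = 0 := by
  rcases i with _ | _ | i
  all_goals
    simp [d_e, d_r, S_r, d_rho N, S_rho N (by omega : 2 ≤ N), d_q N (by omega : 1 ≤ N),
      S_q N (by omega : 2 ≤ N), d_s, S_s, d_t N (by omega : 2 ≤ N), S_t, S_e N (by omega : 2 ≤ N),
      dRow, sRow, vtx, eul', eul, v_e_zero, v_rho_zero, v_s_zero, smul_smul, smul_sub, smul_add,
      smul_qsmul, smul_assoc, add_smul, sub_smul, mul_add, mul_sub, sub_mul, mul_assoc, D₀X₀, D₁X₁,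
      D₀X₁, D₁X₀, X₁X₀, D₀X₀', D₁X₁', D₀X₁', D₁X₀', X₁X₀', D₁D₀, D₁D₀', add_mul]
    all_goals (simp only [act_def]; module)

theorem dd_q_one (N i : ℕ) (hN : 2 ≤ N) : d N (d N (v N (q 1 i))) = 0 := by
  rcases i with _ | _ | i
  all_goals
    simp [d_e, d_r, S_r, d_rho N, S_rho N (by omega : 2 ≤ N), d_q N (by omega : 1 ≤ N),
      S_q N (by omega : 2 ≤ N), d_s, S_s, d_t N (by omega : 2 ≤ N), S_t, S_e N (by omega : 2 ≤ N),
      dRow, sRow, vtx, eul', eul, v_e_zero, v_rho_zero, v_s_zero, smul_smul, smul_sub, smul_add,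
      smul_qsmul, smul_assoc, add_smul, sub_smul, mul_add, mul_sub, sub_mul, mul_assoc, D₀X₀, D₁X₁,
      D₀X₁, D₁X₀, X₁X₀, D₀X₀', D₁X₁', D₀X₁', D₁X₀', X₁X₀', D₁D₀, D₁D₀', add_mul]
    all_goals (simp only [act_def]; module)

theorem dd_s (N i : ℕ) (hN : 2 ≤ N) : d N (d N (v N (s (i + 1)))) = 0 := by
  rcases i with _ | _ | i
  all_goals
    simp [d_e, d_r, S_r, d_rho N, S_rho N (by omega : 2 ≤ N), d_q N (by omega : 1 ≤ N),
      S_q N (by omega : 2 ≤ N), d_s, S_s, d_t N (by omega : 2 ≤ N), S_t, S_e N (by omega : 2 ≤ N),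
      dRow, sRow, vtx, eul', eul, v_e_zero, v_rho_zero, v_s_zero, smul_smul, smul_sub, smul_add,
      smul_qsmul, smul_assoc, add_smul, sub_smul, mul_add, mul_sub, sub_mul, mul_assoc, D₀X₀, D₁X₁,
      D₀X₁, D₁X₀, X₁X₀, D₀X₀', D₁X₁', D₀X₁', D₁X₀', X₁X₀', D₁D₀, D₁D₀', add_mul]
    all_goals (simp only [act_def]; module)

theorem dd_t (N i : ℕ) (hN : 2 ≤ N) : d N (d N (v N (t i))) = 0 := by
  rcases i with _ | _ | i
  all_goals
    simp [d_e, d_r, S_r, d_rho N, S_rho N (by omega : 2 ≤ N), d_q N (by omega : 1 ≤ N),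
      S_q N (by omega : 2 ≤ N), d_s, S_s, d_t N (by omega : 2 ≤ N), S_t, S_e N (by omega : 2 ≤ N),
      dRow, sRow, vtx, eul', eul, v_e_zero, v_rho_zero, v_s_zero, smul_smul, smul_sub, smul_add,
      smul_qsmul, smul_assoc, add_smul, sub_smul, mul_add, mul_sub, sub_mul, mul_assoc, D₀X₀, D₁X₁,
      D₀X₁, D₁X₀, X₁X₀, D₀X₀', D₁X₁', D₀X₁', D₁X₀', X₁X₀', D₁D₀, D₁D₀', add_mul]
    all_goals (simp only [act_def]; module)

/-- `d d = 0`. -/
theorem dd {N : ℕ} (hN : 2 ≤ N) (g : Gen) : d N (d N (v N g)) = 0 := by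
  by_cases h : g.Valid N
  swap
  · simp [v_invalid N h]
  rcases g with i | i | ⟨j, i⟩ | ⟨j, i⟩ | i | i
  · simp [d_e]
  · simp [d_r, dRow, d_e]
  · obtain ⟨i, rfl⟩ := Nat.exists_eq_add_of_le' h.1
    fin_cases j
    · exact dd_rho_zero N i hN
    · exact dd_rho_one N i hN
  · fin_cases j
    · exact dd_q_zero N i hN
    · exact dd_q_one N i hN
  · obtain ⟨i, rfl⟩ := Nat.exists_eq_add_of_le' h.1; exact dd_s N i hN
  · exact dd_t N i hN

end Vale.Agent.P195.ResR
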