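import Vale.Agent.P195.ResGen

/-!
# P195: products of matrices as images of rows

A sum over the indices of one level of `x (gen i) * f (gen i)` is the row `mat N f x`.
-/

noncomputable section

namespace Vale.Agent.P195.ResR

open Gen

variable (N : ℕ)

/-- Rows on the generators of one level. -/
def Lev (l : ℕ) : Submodule Op Row where
  carrier := {x | ∀ h, ¬(h.Valid N ∧ h.lev = l) → x h = 0}
  add_mem' hx hy h hh := by simp [hx h hh, hy h hh]
  zero_mem' _ _ := rfl
  smul_mem' c _ hx h hh := by simp [hx h hh]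

variable {N}

theorem v_lev {l : ℕ} (g : Gen) (h : g.lev = l) : v N g ∈ Lev N l := fun h' hh => by
  unfold v
  split_ifs with hg
  · exact Finsupp.single_eq_of_ne fun e => hh (by subst e; exact ⟨hg, h⟩)
  · rfl

theorem dRow_lev (g : Gen) : dRow N g ∈ Lev N (g.lev - 1) := by
  rcases g with i | i | ⟨j, i⟩ | ⟨j, i⟩ | i | i
  any_goals (obtain rfl | rfl : j = 0 ∨ j = 1 := by omega)
  all_goals simp only [dRow, smul_sub, ite_smul, one_smul, zero_smul]
  all_goals repeat' first
    | with_reducible exact zero_mem _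
    | with_reducible refine add_mem ?_ ?_
    | with_reducible refine sub_mem ?_ ?_
    | with_reducible refine Submodule.smul_mem _ _ (v_lev _ rfl)
    | split_ifs

theorem sRow_lev (g : Gen) : sRow N g ∈ Lev N (g.lev + 1) := by
  rcases g with i | i | ⟨j, i⟩ | ⟨j, i⟩ | i | i
  any_goals (obtain rfl | rfl : j = 0 ∨ j = 1 := by omega)
  all_goals simp only [sRow, smul_sub, ite_smul, one_smul, zero_smul]
  all_goals repeat' first
    | with_reducible exact zero_mem _
    | with_reducible refine add_mem ?_ ?_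
    | with_reducible refine sub_mem ?_ ?_
    | with_reducible refine neg_mem ?_
    | with_reducible refine Submodule.smul_mem _ _ (v_lev _ rfl)
    | with_reducible exact v_lev _ rfl
    | split_ifs

theorem hRow_lev (g : Gen) : hRow N g ∈ Lev N (g.lev - 1) := by
  rcases g with i | i | ⟨j, i⟩ | ⟨j, i⟩ | i | i
  any_goals (obtain rfl | rfl : j = 0 ∨ j = 1 := by omega)
  all_goals simp only [hRow]
  all_goals repeat' first
    | with_reducible exact zero_mem _
    | with_reducible refine neg_mem ?_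
    | with_reducible exact v_lev _ rfl
    | split_ifs

theorem gRow_lev (g : Gen) : gRow N g ∈ Lev N (g.lev - 1) := by
  rcases g with i | i | ⟨j, i⟩ | ⟨j, i⟩ | i | i
  any_goals (obtain rfl | rfl : j = 0 ∨ j = 1 := by omega)
  all_goals simp only [gRow]
  all_goals repeat' first
    | with_reducible exact zero_mem _
    | with_reducible refine neg_mem ?_
    | with_reducible exact v_lev _ rfl
    | split_ifs

theorem thRow_lev (g : Gen) : thRow N g ∈ Lev N 0 := by
  cases g <;> simp only [thRow] <;> repeat' first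
    | with_reducible exact zero_mem _
    | with_reducible refine neg_mem ?_
    | with_reducible refine Submodule.smul_mem _ _ (v_lev _ rfl)
    | split_ifs

/-- An indexing of one level. -/
structure Enum (N l : ℕ) (ι : Type) [Fintype ι] where
  gen : ι → Gen
  inj : Function.Injective gen
  range : ∀ g, g.Valid N ∧ g.lev = l ↔ ∃ i, gen i = g

variable {l : ℕ} {ι : Type} [Fintype ι] {M : Type*} [AddCommMonoid M]

theorem Enum.sum_eq (E : Enum N l ι) {x : Row} (hx : x ∈ Lev N l) (φ : Gen → Op → M)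
    (hφ : ∀ g, φ g 0 = 0) : x.sum φ = ∑ i, φ (E.gen i) (x (E.gen i)) := by
  rw [Finsupp.sum_of_support_subset x (s := Finset.univ.map ⟨E.gen, E.inj⟩) ?_ _ fun g _ => hφ g,
    Finset.sum_map]
  · rfl
  intro g hg
  obtain ⟨i, hi⟩ := (E.range g).1 (by_contra fun h => Finsupp.mem_support_iff.1 hg (hx g h))
  exact Finset.mem_map.2 ⟨i, Finset.mem_univ _, hi⟩

/-- A product of matrices is the image of a row. -/
theorem Enum.sum_mul (E : Enum N l ι) {x : Row} (hx : x ∈ Lev N l) (f : Gen → Row) (h : Gen) :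
    ∑ i, x (E.gen i) * f (E.gen i) h = mat N f x h := by
  rw [← E.sum_eq hx (fun g c => c * f g h) fun g => zero_mul _]
  rw [mat, Finsupp.linearCombination_apply, Finsupp.sum, Finsupp.sum, Finsupp.finsetSum_apply]
  refine Finset.sum_congr rfl fun g hg => ?_
  have : g.Valid N ∧ g.lev = l := by_contra fun h => Finsupp.mem_support_iff.1 hg (hx g h)
  simp [this.1]

theorem mat_v' (f : Gen → Row) {g : Gen} (hg : g.Valid N) : mat N f (v N g) = f g := by
  rw [mat_v, if_pos hg]

/-- Level zero. -/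
def enum0 (N : ℕ) : Enum N 0 (Res.G0 N) where
  gen := Res.gen0
  inj i j h := by simpa [Res.gen0, Fin.val_inj] using h
  range g := by
    refine ⟨fun ⟨hv, hl⟩ => ?_, ?_⟩
    · rcases g with i | i | ⟨j, i⟩ | ⟨j, i⟩ | i | i <;> simp only [lev] at hl <;> try omega
      · obtain ⟨h1, h2⟩ := hv
        exact ⟨⟨i - 1, by omega⟩, by simp [Res.gen0, show i - 1 + 1 = i by omega]⟩
    · rintro ⟨i, rfl⟩
      exact ⟨⟨by omega, by omega⟩, rfl⟩

/-- Level one. -/
def enum1 (N : ℕ) : Enum N 1 (Res.G1 N) where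
  gen := Res.gen1
  inj i j h := by
    rcases i with i | ⟨a, i⟩ <;> rcases j with j | ⟨b, j⟩ <;>
      simp_all [Res.gen1, Fin.val_inj]
  range g := by
    refine ⟨fun ⟨hv, hl⟩ => ?_, ?_⟩
    · rcases g with i | i | ⟨j, i⟩ | ⟨j, i⟩ | i | i <;> simp only [lev] at hl <;> try omega
      · exact ⟨.inl ⟨i, Nat.lt_succ_of_le hv⟩, rfl⟩
      · obtain ⟨h1, h2⟩ := hv
        exact ⟨.inr (j, ⟨i - 1, by omega⟩), by simp [Res.gen1, show i - 1 + 1 = i by omega]⟩
    · rintro ⟨i | ⟨j, i⟩, rfl⟩
      · exact ⟨Nat.le_of_lt_succ i.isLt, rfl⟩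
      · exact ⟨⟨by omega, by have := i.isLt; omega⟩, rfl⟩

/-- Level two. -/
def enum2 (N : ℕ) : Enum N 2 (Res.G2 N) where
  gen := Res.gen2
  inj i j h := by
    rcases i with ⟨a, i⟩ | i <;> rcases j with ⟨b, j⟩ | j <;>
      simp_all [Res.gen2, Fin.val_inj]
  range g := by
    refine ⟨fun ⟨hv, hl⟩ => ?_, ?_⟩
    · rcases g with i | i | ⟨j, i⟩ | ⟨j, i⟩ | i | i <;> simp only [lev] at hl <;> try omega
      · exact ⟨.inl (j, ⟨i, hv⟩), rfl⟩
      · obtain ⟨h1, h2⟩ := hv
        exact ⟨.inr ⟨i - 1, by omega⟩, by simp [Res.gen2, show i - 1 + 1 = i by omega]⟩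
    · rintro ⟨⟨j, i⟩ | i, rfl⟩
      · exact ⟨i.isLt, rfl⟩
      · exact ⟨⟨by omega, by have := i.isLt; omega⟩, rfl⟩

/-- Level three. -/
def enum3 (N : ℕ) : Enum N 3 (Res.G3 N) where
  gen := Res.gen3
  inj i j h := by simpa [Res.gen3, Fin.val_inj] using h
  range g := by
    refine ⟨fun ⟨hv, hl⟩ => ?_, ?_⟩
    · rcases g with i | i | ⟨j, i⟩ | ⟨j, i⟩ | i | i <;> simp only [lev] at hl <;> try omega
      · exact ⟨⟨i, by simp only [Valid] at hv; omega⟩, rfl⟩
    · rintro ⟨i, rfl⟩
      exact ⟨by have := i.isLt; simp only [Res.gen3, Valid]; omega, rfl⟩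

end Vale.Agent.P195.ResR
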