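import Vale.Agent.P195.OpsFacts

/-!
# P195: generators and matrices of the resolution

`N = -(n+1)`. A row is a formal left combination of generators; a matrix is an operator linear map
of rows, so composition is the product of matrices with the coefficient of the first map on the
left. Generators out of range are sent to zero by `v`.
-/

noncomputable section

namespace Vale.Agent.P195.ResR

open Finsupp (single)

/-- Names of generators, in four levels: `e`, then `r, rho`, then `q, s`, then `t`. -/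
inductive Gen
  | e (i : ℕ)
  | r (i : ℕ)
  | rho (j : Fin 2) (i : ℕ)
  | q (j : Fin 2) (i : ℕ)
  | s (i : ℕ)
  | t (i : ℕ)
  deriving DecidableEq

namespace Gen

/-- The vertex of a generator. -/
def vtx : Gen → ℤ × ℕ
  | e _ => (0, 0)
  | r _ => (1, 0)
  | rho _ _ => (0, 1)
  | q _ _ => (1, 1)
  | s _ => (0, 2)
  | t _ => (1, 2)

/-- The level of a generator. -/
def lev : Gen → ℕ
  | e _ => 0
  | r _ | rho _ _ => 1
  | q _ _ | s _ => 2
  | t _ => 3

/-- The range of the index. -/
def Valid (N : ℕ) : Gen → Prop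
  | e i => 1 ≤ i ∧ i ≤ N
  | r i => i ≤ N
  | rho _ i => 1 ≤ i ∧ i + 1 ≤ N
  | q _ i => i + 1 ≤ N
  | s i => 1 ≤ i ∧ i + 2 ≤ N
  | t i => i + 2 ≤ N

instance decValid (N : ℕ) : DecidablePred (Valid N)
  | e i => inferInstanceAs (Decidable (1 ≤ i ∧ i ≤ N))
  | r i => inferInstanceAs (Decidable (i ≤ N))
  | rho _ i => inferInstanceAs (Decidable (1 ≤ i ∧ i + 1 ≤ N))
  | q _ i => inferInstanceAs (Decidable (i + 1 ≤ N))
  | s i => inferInstanceAs (Decidable (1 ≤ i ∧ i + 2 ≤ N))
  | t i => inferInstanceAs (Decidable (i + 2 ≤ N))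

end Gen

open Gen

/-- Formal left combinations of generators. -/
abbrev Row : Type := Gen →₀ Op

/-- The group structure, stated here so that `simp` finds it at once. -/
instance rowAddCommGroup : AddCommGroup Row := Finsupp.instAddCommGroup

variable (N : ℕ)

/-- The generator, or zero if it is out of range. -/
def v (g : Gen) : Row := if g.Valid N then single g 1 else 0

/-- The linear extension of a map on generators in range. -/
def mat (f : Gen → Row) : Row →ₗ[Op] Row :=
  Finsupp.linearCombination Op fun g => if g.Valid N then f g else 0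

/-- The resolution of `Y_n` over `B`, on generators. -/
def dRow : Gen → Row
  | e _ => 0
  | r i => X₀ • v N (e (i + 1)) - X₁ • v N (e i)
  | rho 0 i => (D₀ * X₀ + (i : ℚ) • 1) • v N (e (i + 1))
  | rho 1 i => (D₁ * X₀) • v N (e (i + 1)) + (((N : ℚ) - i) • (1 : Op)) • v N (e i)
  | q 0 i => X₀ • v N (rho 0 (i + 1)) - X₁ • v N (rho 0 i)
      - (D₀ * X₀ + (i : ℚ) • 1) • v N (r (i + 1))
      - (if i = 0 then D₀ * X₁ else 0) • v N (r 0)
  | q 1 i => X₀ • v N (rho 1 (i + 1)) - X₁ • v N (rho 1 i)
      - (D₁ * X₀) • v N (r (i + 1)) - (((N : ℚ) - i) • (1 : Op)) • v N (r i)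
      - (if i = 0 then D₁ * X₁ - 1 else 0) • v N (r 0)
  | s i => (D₀ * X₀ + (i : ℚ) • 1) • v N (rho 1 (i + 1)) - (D₁ * X₀) • v N (rho 0 (i + 1))
      - (((N : ℚ) - 1 - i) • (1 : Op)) • v N (rho 0 i)
  | t i => X₀ • v N (s (i + 1)) - X₁ • v N (s i)
      - (D₀ * X₀ + (i : ℚ) • 1) • v N (q 1 (i + 1)) + (D₁ * X₀) • v N (q 0 (i + 1))
      + (((N : ℚ) - 1 - i) • (1 : Op)) • v N (q 0 i)
      + (if i = 0 then 1 else 0 : Op) • ((D₁ * X₁ - 1) • v N (q 0 0) - (D₀ * X₁) • v N (q 1 0))

/-- The homotopy of the Euler operator, on generators. -/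
def sRow : Gen → Row
  | e i => D₁ • v N (r i) - v N (rho 0 (i - 1)) - v N (rho 1 i)
      - (if i = 1 then D₀ else 0) • v N (r 0)
  | r i => (if i = 0 then 0 else v N (q 0 (i - 1))) + v N (q 1 i)
  | rho 0 i => D₁ • v N (q 0 i) + v N (s i)
  | rho 1 i => D₁ • v N (q 1 i) - v N (s (i - 1))
      + (if i = 1 then 1 else 0 : Op) • (D₁ • v N (q 0 0) - D₀ • v N (q 1 0))
  | q 0 i => -v N (t i)
  | q 1 i => if i = 0 then 0 else v N (t (i - 1))
  | s i => D₁ • v N (t i)
  | t _ => 0

/-- The part of the correction that is constant in the copy. -/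
def hRow : Gen → Row
  | q 1 i => if i = 0 then v N (r 0) else 0
  | s i => -v N (rho 1 (i + 1))
  | t i => v N (q 1 (i + 1))
  | _ => 0

/-- The part of the correction that is linear in the copy. -/
def gRow : Gen → Row
  | q 0 i => v N (r (i + 1))
  | q 1 i => if i = 0 then v N (r 0) else 0
  | rho 0 i => -v N (e (i + 1))
  | rho 1 i => if i = 1 then -v N (e 1) else 0
  | s i => -v N (rho 1 (i + 1))
  | t i => v N (q 1 (i + 1))
  | _ => 0

/-- The map from a copy to the next one, before multiplication by `k + 1`. -/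
def thRow : Gen → Row
  | t i => if i = 0 then -(X₁ • v N (e 1)) else 0
  | _ => 0

/-- The differential of `P`. -/
abbrev d : Row →ₗ[Op] Row := mat N (dRow N)

/-- The homotopy. -/
abbrev S : Row →ₗ[Op] Row := mat N (sRow N)

/-- The constant correction. -/
abbrev H : Row →ₗ[Op] Row := mat N (hRow N)

/-- The linear correction. -/
abbrev G : Row →ₗ[Op] Row := mat N (gRow N)

/-- The map to the next copy. -/
abbrev Th : Row →ₗ[Op] Row := mat N (thRow N)

theorem mat_v (f : Gen → Row) (g : Gen) : mat N f (v N g) = if g.Valid N then f g else 0 := by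
  unfold mat v
  split_ifs with h <;> simp [h]

end Vale.Agent.P195.ResR
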