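import Vale.Agent.P195.ResR.Rows

/-!
# P195: values of the matrices on generators

The formulas hold for every index, except that a generator with index zero out of range goes to zero.
-/

noncomputable section

namespace Vale.Agent.P195.ResR

open Gen

variable (N : ℕ)

theorem v_invalid {g : Gen} (h : ¬g.Valid N) : v N g = 0 := if_neg h

theorem mat_v_of_invalid (f : Gen → Row) {g : Gen} (h : ¬g.Valid N → f g = 0) :
    mat N f (v N g) = f g := by
  rw [mat_v]
  split_ifs with hg
  · rfl
  · exact (h hg).symm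

theorem v_eq_zero_iff (g : Gen) : v N g = 0 ↔ ¬g.Valid N := by
  unfold v
  split_ifs with h <;> simp [h]

theorem v_e_zero : v N (e 0) = 0 := v_invalid N (by simp [Valid])

theorem v_rho_zero (j : Fin 2) : v N (rho j 0) = 0 := v_invalid N (by simp [Valid])

theorem v_s_zero : v N (s 0) = 0 := v_invalid N (by simp [Valid])

/-! ### The differential -/

theorem d_e (i : ℕ) : d N (v N (e i)) = 0 := by simp [mat_v, dRow]

theorem d_r (i : ℕ) : d N (v N (r i)) = dRow N (r i) :=
  mat_v_of_invalid N _ fun h => by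
    simp only [Valid] at h
    simp [dRow, v, Valid, show ¬i + 1 ≤ N by omega, h]

theorem d_rho {i : ℕ} (hi : i ≠ 0) (j : Fin 2) : d N (v N (rho j i)) = dRow N (rho j i) :=
  mat_v_of_invalid N _ fun h => by
    simp only [Valid] at h
    fin_cases j <;> simp [dRow, v, Valid, show ¬i + 1 ≤ N by omega]
    rcases Nat.lt_or_ge N i with hN | hN
    · simp [show ¬i ≤ N by omega]
    · simp [show i = N by omega]

theorem d_q (hN : 1 ≤ N) (j : Fin 2) (i : ℕ) : d N (v N (q j i)) = dRow N (q j i) :=
  mat_v_of_invalid N _ fun h => by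
    simp only [Valid] at h
    fin_cases j <;> simp [dRow, v, Valid, show ¬i + 1 ≤ N by omega, show i ≠ 0 by omega,
      show ¬i + 1 + 1 ≤ N by omega]
    rcases Nat.lt_or_ge N i with hN | hN
    · simp [show ¬i ≤ N by omega]
    · simp [show i = N by omega]

theorem d_s {i : ℕ} (hi : i ≠ 0) : d N (v N (s i)) = dRow N (s i) :=
  mat_v_of_invalid N _ fun h => by
    simp only [Valid] at h
    simp [dRow, v, Valid, show ¬i + 1 + 1 ≤ N by omega]
    rintro -
    intro h'
    simp [show N = i + 1 by omega]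

theorem d_t (hN : 2 ≤ N) (i : ℕ) : d N (v N (t i)) = dRow N (t i) :=
  mat_v_of_invalid N _ fun h => by
    simp only [Valid] at h
    simp [dRow, v, Valid, show ¬i + 1 + 1 ≤ N by omega, show i ≠ 0 by omega,
      show ¬i + 1 + 2 ≤ N by omega]
    intro h'
    simp [show N = i + 1 by omega]

/-! ### The homotopy -/

theorem S_e (hN : 2 ≤ N) {i : ℕ} (hi : i ≠ 0) : S N (v N (e i)) = sRow N (e i) :=
  mat_v_of_invalid N _ fun h => by
    simp only [Valid] at h
    simp [sRow, v, Valid, show ¬i ≤ N by omega, show ¬i + 1 ≤ N by omega,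
      show ¬i - 1 + 1 ≤ N by omega]
    intros
    omega

theorem S_r (i : ℕ) : S N (v N (r i)) = sRow N (r i) :=
  mat_v_of_invalid N _ fun h => by
    simp only [Valid] at h
    simp [sRow, v, Valid, show ¬i + 1 ≤ N by omega, show ¬i - 1 + 1 ≤ N by omega]

theorem S_rho (hN : 2 ≤ N) {i : ℕ} (hi : i ≠ 0) (j : Fin 2) : S N (v N (rho j i)) = sRow N (rho j i) :=
  mat_v_of_invalid N _ fun h => by
    simp only [Valid] at h
    fin_cases j <;> simp [sRow, v, Valid, show ¬i + 1 ≤ N by omega, show ¬i + 2 ≤ N by omega,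
      show ¬i - 1 + 2 ≤ N by omega]
    intros
    omega

theorem S_q (hN : 2 ≤ N) (j : Fin 2) (i : ℕ) : S N (v N (q j i)) = sRow N (q j i) :=
  mat_v_of_invalid N _ fun h => by
    simp only [Valid] at h
    fin_cases j <;> simp [sRow, v, Valid, show ¬i + 2 ≤ N by omega, show i ≠ 0 by omega,
      show ¬i - 1 + 2 ≤ N by omega]

theorem S_s {i : ℕ} : S N (v N (s i)) = if i = 0 then 0 else sRow N (s i) := by
  split_ifs with hi
  · subst hi; simp [v_s_zero]
  refine mat_v_of_invalid N _ fun h => ?_
  simp only [Valid] at h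
  simp [sRow, v, Valid, show ¬i + 2 ≤ N by omega]

theorem S_t (i : ℕ) : S N (v N (t i)) = 0 := by simp [mat_v, sRow]

end Vale.Agent.P195.ResR
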