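import Vale.Agent.P195.ResR.Euler

/-!
# P195: the corrections and the map between copies

Off the terms that vanish in `W` these two identities are the coefficients of `1` and of `k` in
the square of the glued differential: `omRow` is the cocycle on the two steps of `d`, `lowRow`
has scalar coefficients two orders below the top.
-/

noncomputable section

namespace Vale.Agent.P195.ResR

open Gen

set_option linter.unusedSimpArgs false
set_option linter.unusedTactic false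
set_option linter.unreachableTactic false
set_option linter.unusedVariables false

variable (N : ℕ)

/-- The cocycle on two steps of `d`. -/
def omRow : Gen → Row
  | q 1 i => if i = 0 then -(X₀ • v N (e 1)) else 0
  | s i => (X₀ * D₁) • v N (e (i + 2))
  | t i => (X₀ * D₁) • v N (r (i + 2)) + (if i = 0 then (X₁ * D₁) • v N (r 1) else 0)
  | _ => 0

/-- The remainder, of low order. -/
def lowRow : Gen → Row
  | s i => -((((N : ℚ) - 1 - i) • (1 : Op)) • v N (e (i + 1)))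
  | t i => -((((N : ℚ) - 1 - i) • (1 : Op)) • v N (r (i + 1)))
  | _ => 0

/-- The constant coefficient at one generator. -/
def ConstAt (g : Gen) : Prop :=
  d N (H N (v N g)) + H N (d N (v N g)) + omRow N g + S N (Th N (v N g)) = lowRow N g

/-- The linear coefficient at one generator. -/
def LinAt (g : Gen) : Prop :=
  d N (G N (v N g)) + G N (d N (v N g)) + Th N (S N (v N g)) + S N (Th N (v N g)) = 0

/-! ### Values -/

theorem H_r (i : ℕ) : H N (v N (r i)) = 0 := by simp [mat_v, hRow]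

theorem H_e (i : ℕ) : H N (v N (e i)) = 0 := by simp [mat_v, hRow]

theorem H_rho (j : Fin 2) (i : ℕ) : H N (v N (rho j i)) = 0 := by simp [mat_v, hRow]

theorem H_q (hN : 2 ≤ N) (j : Fin 2) (i : ℕ) : H N (v N (q j i)) = hRow N (q j i) :=
  mat_v_of_invalid N _ fun h => by
    simp only [Valid] at h
    fin_cases j <;> simp [hRow, show i ≠ 0 by omega]

theorem H_s {i : ℕ} (hi : i ≠ 0) : H N (v N (s i)) = hRow N (s i) :=
  mat_v_of_invalid N _ fun h => by
    simp only [Valid] at h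
    simp [hRow, v, Valid, show ¬i + 2 ≤ N by omega]

theorem H_t (i : ℕ) : H N (v N (t i)) = hRow N (t i) :=
  mat_v_of_invalid N _ fun h => by
    simp only [Valid] at h
    simp [hRow, v, Valid, show ¬i + 1 + 1 ≤ N by omega]

theorem G_r (i : ℕ) : G N (v N (r i)) = 0 := by simp [mat_v, gRow]

theorem G_e (i : ℕ) : G N (v N (e i)) = 0 := by simp [mat_v, gRow]

theorem G_rho (hN : 2 ≤ N) {i : ℕ} (hi : i ≠ 0) (j : Fin 2) :
    G N (v N (rho j i)) = gRow N (rho j i) :=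
  mat_v_of_invalid N _ fun h => by
    simp only [Valid] at h
    fin_cases j <;> simp [gRow, v, Valid, show ¬i + 1 ≤ N by omega, show i ≠ 1 by omega]

theorem G_q (hN : 2 ≤ N) (j : Fin 2) (i : ℕ) : G N (v N (q j i)) = gRow N (q j i) :=
  mat_v_of_invalid N _ fun h => by
    simp only [Valid] at h
    fin_cases j <;> simp [gRow, v, Valid, show i ≠ 0 by omega, show ¬i + 1 ≤ N by omega]

theorem G_s {i : ℕ} (hi : i ≠ 0) : G N (v N (s i)) = gRow N (s i) :=
  mat_v_of_invalid N _ fun h => by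
    simp only [Valid] at h
    simp [gRow, v, Valid, show ¬i + 2 ≤ N by omega]

theorem G_t (i : ℕ) : G N (v N (t i)) = gRow N (t i) :=
  mat_v_of_invalid N _ fun h => by
    simp only [Valid] at h
    simp [gRow, v, Valid, show ¬i + 1 + 1 ≤ N by omega]

theorem Th_low (g : Gen) (hg : g.lev ≤ 2) : Th N (v N g) = 0 := by
  cases g <;> simp_all [mat_v, thRow, lev]

theorem Th_r (i : ℕ) : Th N (v N (r i)) = 0 := Th_low N _ (by simp [lev])

theorem Th_q (j : Fin 2) (i : ℕ) : Th N (v N (q j i)) = 0 := Th_low N _ (by simp [lev])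

theorem Th_s (i : ℕ) : Th N (v N (s i)) = 0 := Th_low N _ (by simp [lev])

theorem Th_t (hN : 2 ≤ N) (i : ℕ) : Th N (v N (t i)) = thRow N (t i) :=
  mat_v_of_invalid N _ fun h => by
    simp only [Valid] at h
    simp [thRow, show i ≠ 0 by omega]

theorem const_q_zero (N i : ℕ) (hN : 2 ≤ N) : ConstAt N (q 0 i) := by
  rcases i with _ | _ | i
  all_goals
    simp [ConstAt, H_r, H_e, H_rho, H_q N hN, H_s, H_t, G_r, G_e, G_rho N hN, G_q N hN, G_s, G_t,
      Th_r, Th_q, Th_s, Th_t N hN, d_e, d_r, d_rho N, d_q N (by omega : 1 ≤ N), d_s, d_t N hN,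
      S_r, S_rho N hN, S_q N hN, S_s, S_t, S_e N hN, dRow, sRow, hRow, gRow, thRow, omRow,
      lowRow, v_e_zero, v_rho_zero, v_s_zero, smul_smul, smul_sub, smul_add, smul_qsmul,
      smul_assoc, add_smul, sub_smul, mul_add, mul_sub, sub_mul, mul_assoc, D₀X₀, D₁X₁,
      D₀X₁, D₁X₀, X₁X₀, D₀X₀', D₁X₁', D₀X₁', D₁X₀', X₁X₀', D₁D₀, D₁D₀', add_mul]
    all_goals (simp only [act_def]; module)

theorem const_q_one (N i : ℕ) (hN : 2 ≤ N) : ConstAt N (q 1 i) := by
  rcases i with _ | _ | i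
  all_goals
    simp [ConstAt, H_r, H_e, H_rho, H_q N hN, H_s, H_t, G_r, G_e, G_rho N hN, G_q N hN, G_s, G_t,
      Th_r, Th_q, Th_s, Th_t N hN, d_e, d_r, d_rho N, d_q N (by omega : 1 ≤ N), d_s, d_t N hN,
      S_r, S_rho N hN, S_q N hN, S_s, S_t, S_e N hN, dRow, sRow, hRow, gRow, thRow, omRow,
      lowRow, v_e_zero, v_rho_zero, v_s_zero, smul_smul, smul_sub, smul_add, smul_qsmul,
      smul_assoc, add_smul, sub_smul, mul_add, mul_sub, sub_mul, mul_assoc, D₀X₀, D₁X₁,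
      D₀X₁, D₁X₀, X₁X₀, D₀X₀', D₁X₁', D₀X₁', D₁X₀', X₁X₀', D₁D₀, D₁D₀', add_mul]
    all_goals (simp only [act_def]; module)

theorem const_s (N i : ℕ) (hN : 2 ≤ N) : ConstAt N (s (i + 1)) := by
  rcases i with _ | _ | i
  all_goals
    simp [ConstAt, H_r, H_e, H_rho, H_q N hN, H_s, H_t, G_r, G_e, G_rho N hN, G_q N hN, G_s, G_t,
      Th_r, Th_q, Th_s, Th_t N hN, d_e, d_r, d_rho N, d_q N (by omega : 1 ≤ N), d_s, d_t N hN,
      S_r, S_rho N hN, S_q N hN, S_s, S_t, S_e N hN, dRow, sRow, hRow, gRow, thRow, omRow,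
      lowRow, v_e_zero, v_rho_zero, v_s_zero, smul_smul, smul_sub, smul_add, smul_qsmul,
      smul_assoc, add_smul, sub_smul, mul_add, mul_sub, sub_mul, mul_assoc, D₀X₀, D₁X₁,
      D₀X₁, D₁X₀, X₁X₀, D₀X₀', D₁X₁', D₀X₁', D₁X₀', X₁X₀', D₁D₀, D₁D₀', add_mul]
    all_goals (module)

theorem const_t (N i : ℕ) (hN : 2 ≤ N) : ConstAt N (t i) := by
  rcases i with _ | _ | i
  all_goals
    simp [ConstAt, H_r, H_e, H_rho, H_q N hN, H_s, H_t, G_r, G_e, G_rho N hN, G_q N hN, G_s, G_t,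
      Th_r, Th_q, Th_s, Th_t N hN, d_e, d_r, d_rho N, d_q N (by omega : 1 ≤ N), d_s, d_t N hN,
      S_r, S_rho N hN, S_q N hN, S_s, S_t, S_e N hN, dRow, sRow, hRow, gRow, thRow, omRow,
      lowRow, v_e_zero, v_rho_zero, v_s_zero, smul_smul, smul_sub, smul_add, smul_qsmul,
      smul_assoc, add_smul, sub_smul, mul_add, mul_sub, sub_mul, mul_assoc, D₀X₀, D₁X₁,
      D₀X₁, D₁X₀, X₁X₀, D₀X₀', D₁X₁', D₀X₁', D₁X₀', X₁X₀', D₁D₀, D₁D₀', add_mul]
    all_goals (simp only [act_def]; module)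

theorem lin_q_zero (N i : ℕ) (hN : 2 ≤ N) : LinAt N (q 0 i) := by
  rcases i with _ | _ | i
  all_goals
    simp [LinAt, H_r, H_e, H_rho, H_q N hN, H_s, H_t, G_r, G_e, G_rho N hN, G_q N hN, G_s, G_t,
      Th_r, Th_q, Th_s, Th_t N hN, d_e, d_r, d_rho N, d_q N (by omega : 1 ≤ N), d_s, d_t N hN,
      S_r, S_rho N hN, S_q N hN, S_s, S_t, S_e N hN, dRow, sRow, hRow, gRow, thRow, omRow,
      lowRow, v_e_zero, v_rho_zero, v_s_zero, smul_smul, smul_sub, smul_add, smul_qsmul,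
      smul_assoc, add_smul, sub_smul, mul_add, mul_sub, sub_mul, mul_assoc, D₀X₀, D₁X₁,
      D₀X₁, D₁X₀, X₁X₀, D₀X₀', D₁X₁', D₀X₁', D₁X₀', X₁X₀', D₁D₀, D₁D₀', add_mul]
    all_goals (simp only [act_def]; module)

theorem lin_q_one (N i : ℕ) (hN : 2 ≤ N) : LinAt N (q 1 i) := by
  rcases i with _ | _ | i
  all_goals
    simp [LinAt, H_r, H_e, H_rho, H_q N hN, H_s, H_t, G_r, G_e, G_rho N hN, G_q N hN, G_s, G_t,
      Th_r, Th_q, Th_s, Th_t N hN, d_e, d_r, d_rho N, d_q N (by omega : 1 ≤ N), d_s, d_t N hN,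
      S_r, S_rho N hN, S_q N hN, S_s, S_t, S_e N hN, dRow, sRow, hRow, gRow, thRow, omRow,
      lowRow, v_e_zero, v_rho_zero, v_s_zero, smul_smul, smul_sub, smul_add, smul_qsmul,
      smul_assoc, add_smul, sub_smul, mul_add, mul_sub, sub_mul, mul_assoc, D₀X₀, D₁X₁,
      D₀X₁, D₁X₀, X₁X₀, D₀X₀', D₁X₁', D₀X₁', D₁X₀', X₁X₀', D₁D₀, D₁D₀', add_mul]

theorem lin_s (N i : ℕ) (hN : 2 ≤ N) : LinAt N (s (i + 1)) := by
  rcases i with _ | _ | i
  all_goals
    simp [LinAt, H_r, H_e, H_rho, H_q N hN, H_s, H_t, G_r, G_e, G_rho N hN, G_q N hN, G_s, G_t,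
      Th_r, Th_q, Th_s, Th_t N hN, d_e, d_r, d_rho N, d_q N (by omega : 1 ≤ N), d_s, d_t N hN,
      S_r, S_rho N hN, S_q N hN, S_s, S_t, S_e N hN, dRow, sRow, hRow, gRow, thRow, omRow,
      lowRow, v_e_zero, v_rho_zero, v_s_zero, smul_smul, smul_sub, smul_add, smul_qsmul,
      smul_assoc, add_smul, sub_smul, mul_add, mul_sub, sub_mul, mul_assoc, D₀X₀, D₁X₁,
      D₀X₁, D₁X₀, X₁X₀, D₀X₀', D₁X₁', D₀X₁', D₁X₀', X₁X₀', D₁D₀, D₁D₀', add_mul]
    all_goals (simp only [act_def]; module)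

theorem lin_t (N i : ℕ) (hN : 2 ≤ N) : LinAt N (t i) := by
  rcases i with _ | _ | i
  all_goals
    simp [LinAt, H_r, H_e, H_rho, H_q N hN, H_s, H_t, G_r, G_e, G_rho N hN, G_q N hN, G_s, G_t,
      Th_r, Th_q, Th_s, Th_t N hN, d_e, d_r, d_rho N, d_q N (by omega : 1 ≤ N), d_s, d_t N hN,
      S_r, S_rho N hN, S_q N hN, S_s, S_t, S_e N hN, dRow, sRow, hRow, gRow, thRow, omRow,
      lowRow, v_e_zero, v_rho_zero, v_s_zero, smul_smul, smul_sub, smul_add, smul_qsmul,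
      smul_assoc, add_smul, sub_smul, mul_add, mul_sub, sub_mul, mul_assoc, D₀X₀, D₁X₁,
      D₀X₁, D₁X₀, X₁X₀, D₀X₀', D₁X₁', D₀X₁', D₁X₀', X₁X₀', D₁D₀, D₁D₀', add_mul]
    all_goals (simp only [act_def]; module)

/-- The two identities at every generator of level at least two. -/
theorem const_lin {N : ℕ} (hN : 2 ≤ N) (g : Gen) (hg : g.Valid N) (hl : 2 ≤ g.lev) :
    ConstAt N g ∧ LinAt N g := by
  rcases g with i | i | ⟨j, i⟩ | ⟨j, i⟩ | i | i
  iterate 3 simp [lev] at hl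
  · fin_cases j
    · exact ⟨const_q_zero N i hN, lin_q_zero N i hN⟩
    · exact ⟨const_q_one N i hN, lin_q_one N i hN⟩
  · obtain ⟨i, rfl⟩ := Nat.exists_eq_add_of_le' hg.1
    exact ⟨const_s N i hN, lin_s N i hN⟩
  · exact ⟨const_t N i hN, lin_t N i hN⟩

end Vale.Agent.P195.ResR
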