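import Vale.Agent.P195.ResR.Apply

/-!
# P195: the homotopy of the Euler operator on the resolution

`d S + S d = -(E - a - n)` at a generator of vertex `(a, b)`, with `n = -N - 1`.
-/

noncomputable section

namespace Vale.Agent.P195.ResR

open Gen

set_option linter.unusedSimpArgs false

/-! ### Normal ordering -/

theorem D₀X₀ : D₀ * X₀ = X₀ * D₀ + 1 := by
  simpa [mono] using D₀_mul_mono 1 0 0 0

theorem D₁X₁ : D₁ * X₁ = X₁ * D₁ + 1 := by
  simpa [mono] using D₁_mul_mono 0 1 0 0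

theorem D₀X₁ : D₀ * X₁ = X₁ * D₀ := by
  simpa [mono] using D₀_mul_mono 0 1 0 0

theorem D₁X₀ : D₁ * X₀ = X₀ * D₁ := by
  simpa [mono] using D₁_mul_mono 1 0 0 0

theorem X₁X₀ : X₁ * X₀ = X₀ * X₁ := by
  simpa [mono] using X₁_mul_mono 1 0 0 0

theorem D₁D₀ : D₁ * D₀ = D₀ * D₁ := by
  simpa [mono] using D₁_mul_mono 0 0 1 0

theorem D₀X₀' (a : Op) : D₀ * (X₀ * a) = X₀ * (D₀ * a) + a := by
  rw [← mul_assoc, D₀X₀, add_mul, one_mul, mul_assoc]

theorem D₁X₁' (a : Op) : D₁ * (X₁ * a) = X₁ * (D₁ * a) + a := by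
  rw [← mul_assoc, D₁X₁, add_mul, one_mul, mul_assoc]

theorem D₀X₁' (a : Op) : D₀ * (X₁ * a) = X₁ * (D₀ * a) := by
  rw [← mul_assoc, D₀X₁, mul_assoc]

theorem D₁X₀' (a : Op) : D₁ * (X₀ * a) = X₀ * (D₁ * a) := by
  rw [← mul_assoc, D₁X₀, mul_assoc]

theorem X₁X₀' (a : Op) : X₁ * (X₀ * a) = X₀ * (X₁ * a) := by
  rw [← mul_assoc, X₁X₀, mul_assoc]

theorem D₁D₀' (a : Op) : D₁ * (D₀ * a) = D₀ * (D₁ * a) := by
  rw [← mul_assoc, D₁D₀, mul_assoc]

/-- Left multiplication of a row by an operator, as an atom for `module`. -/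
def act (A : Op) (x : Row) : Row := A • x

theorem act_def (A : Op) (x : Row) : A • x = act A x := rfl

theorem smul_qsmul (A : Op) (c : ℚ) (x : Row) : A • c • x = c • A • x := smul_comm A c x

/-- The identity `d S + S d = -(E - a - n)` at one generator. -/
def EulerAt (N : ℕ) (g : Gen) : Prop :=
  d N (S N (v N g)) + S N (d N (v N g)) = -(eul' (g.vtx.1 - (N + 1)) • v N g)

theorem euler_e (N i : ℕ) (hN : 2 ≤ N) : EulerAt N (e (i + 1)) := by
  rcases i with _ | _ | i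
  all_goals
    simp [EulerAt, d_e, d_r, S_r, d_rho N, S_rho N (by omega : 2 ≤ N), d_q N (by omega : 1 ≤ N),
      S_q N (by omega : 2 ≤ N), d_s, S_s, d_t N (by omega : 2 ≤ N), S_t, S_e N (by omega : 2 ≤ N),
      dRow, sRow, vtx, eul', eul, v_e_zero, v_rho_zero, v_s_zero, smul_smul, smul_sub, smul_add,
      smul_qsmul, smul_assoc, add_smul, sub_smul, mul_add, mul_sub, sub_mul, mul_assoc, D₀X₀, D₁X₁,
      D₀X₁, D₁X₀, X₁X₀, D₀X₀', D₁X₁', D₀X₁', D₁X₀', X₁X₀', D₁D₀, D₁D₀', add_mul]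
    simp only [act_def]
    module

theorem euler_r (N i : ℕ) (hN : 2 ≤ N) : EulerAt N (r i) := by
  rcases i with _ | _ | i
  all_goals
    simp [EulerAt, d_e, d_r, S_r, d_rho N, S_rho N (by omega : 2 ≤ N), d_q N (by omega : 1 ≤ N),
      S_q N (by omega : 2 ≤ N), d_s, S_s, d_t N (by omega : 2 ≤ N), S_t, S_e N (by omega : 2 ≤ N),
      dRow, sRow, vtx, eul', eul, v_e_zero, v_rho_zero, v_s_zero, smul_smul, smul_sub, smul_add,
      smul_qsmul, smul_assoc, add_smul, sub_smul, mul_add, mul_sub, sub_mul, mul_assoc, D₀X₀, D₁X₁,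
      D₀X₁, D₁X₀, X₁X₀, D₀X₀', D₁X₁', D₀X₁', D₁X₀', X₁X₀', D₁D₀, D₁D₀', add_mul]
    simp only [act_def]
    module

theorem euler_rho_zero (N i : ℕ) (hN : 2 ≤ N) : EulerAt N (rho 0 (i + 1)) := by
  rcases i with _ | _ | i
  all_goals
    simp [EulerAt, d_e, d_r, S_r, d_rho N, S_rho N (by omega : 2 ≤ N), d_q N (by omega : 1 ≤ N),
      S_q N (by omega : 2 ≤ N), d_s, S_s, d_t N (by omega : 2 ≤ N), S_t, S_e N (by omega : 2 ≤ N),
      dRow, sRow, vtx, eul', eul, v_e_zero, v_rho_zero, v_s_zero, smul_smul, smul_sub, smul_add,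
      smul_qsmul, smul_assoc, add_smul, sub_smul, mul_add, mul_sub, sub_mul, mul_assoc, D₀X₀, D₁X₁,
      D₀X₁, D₁X₀, X₁X₀, D₀X₀', D₁X₁', D₀X₁', D₁X₀', X₁X₀', D₁D₀, D₁D₀', add_mul]
    simp only [act_def]
    module

theorem euler_rho_one (N i : ℕ) (hN : 2 ≤ N) : EulerAt N (rho 1 (i + 1)) := by
  rcases i with _ | _ | i
  all_goals
    simp [EulerAt, d_e, d_r, S_r, d_rho N, S_rho N (by omega : 2 ≤ N), d_q N (by omega : 1 ≤ N),
      S_q N (by omega : 2 ≤ N), d_s, S_s, d_t N (by omega : 2 ≤ N), S_t, S_e N (by omega : 2 ≤ N),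
      dRow, sRow, vtx, eul', eul, v_e_zero, v_rho_zero, v_s_zero, smul_smul, smul_sub, smul_add,
      smul_qsmul, smul_assoc, add_smul, sub_smul, mul_add, mul_sub, sub_mul, mul_assoc, D₀X₀, D₁X₁,
      D₀X₁, D₁X₀, X₁X₀, D₀X₀', D₁X₁', D₀X₁', D₁X₀', X₁X₀', D₁D₀, D₁D₀', add_mul]
    simp only [act_def]
    module

theorem euler_q_zero (N i : ℕ) (hN : 2 ≤ N) : EulerAt N (q 0 i) := by
  rcases i with _ | _ | i
  all_goals
    simp [EulerAt, d_e, d_r, S_r, d_rho N, S_rho N (by omega : 2 ≤ N), d_q N (by omega : 1 ≤ N),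
      S_q N (by omega : 2 ≤ N), d_s, S_s, d_t N (by omega : 2 ≤ N), S_t, S_e N (by omega : 2 ≤ N),
      dRow, sRow, vtx, eul', eul, v_e_zero, v_rho_zero, v_s_zero, smul_smul, smul_sub, smul_add,
      smul_qsmul, smul_assoc, add_smul, sub_smul, mul_add, mul_sub, sub_mul, mul_assoc, D₀X₀, D₁X₁,
      D₀X₁, D₁X₀, X₁X₀, D₀X₀', D₁X₁', D₀X₁', D₁X₀', X₁X₀', D₁D₀, D₁D₀', add_mul]
    simp only [act_def]
    module

theorem euler_q_one (N i : ℕ) (hN : 2 ≤ N) : EulerAt N (q 1 i) := by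
  rcases i with _ | _ | i
  all_goals
    simp [EulerAt, d_e, d_r, S_r, d_rho N, S_rho N (by omega : 2 ≤ N), d_q N (by omega : 1 ≤ N),
      S_q N (by omega : 2 ≤ N), d_s, S_s, d_t N (by omega : 2 ≤ N), S_t, S_e N (by omega : 2 ≤ N),
      dRow, sRow, vtx, eul', eul, v_e_zero, v_rho_zero, v_s_zero, smul_smul, smul_sub, smul_add,
      smul_qsmul, smul_assoc, add_smul, sub_smul, mul_add, mul_sub, sub_mul, mul_assoc, D₀X₀, D₁X₁,
      D₀X₁, D₁X₀, X₁X₀, D₀X₀', D₁X₁', D₀X₁', D₁X₀', X₁X₀', D₁D₀, D₁D₀', add_mul]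
    simp only [act_def]
    module

theorem euler_s (N i : ℕ) (hN : 2 ≤ N) : EulerAt N (s (i + 1)) := by
  rcases i with _ | _ | i
  all_goals
    simp [EulerAt, d_e, d_r, S_r, d_rho N, S_rho N (by omega : 2 ≤ N), d_q N (by omega : 1 ≤ N),
      S_q N (by omega : 2 ≤ N), d_s, S_s, d_t N (by omega : 2 ≤ N), S_t, S_e N (by omega : 2 ≤ N),
      dRow, sRow, vtx, eul', eul, v_e_zero, v_rho_zero, v_s_zero, smul_smul, smul_sub, smul_add,
      smul_qsmul, smul_assoc, add_smul, sub_smul, mul_add, mul_sub, sub_mul, mul_assoc, D₀X₀, D₁X₁,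
      D₀X₁, D₁X₀, X₁X₀, D₀X₀', D₁X₁', D₀X₁', D₁X₀', X₁X₀', D₁D₀, D₁D₀', add_mul]
    simp only [act_def]
    module

theorem euler_t (N i : ℕ) (hN : 2 ≤ N) : EulerAt N (t i) := by
  rcases i with _ | _ | i
  all_goals
    simp [EulerAt, d_e, d_r, S_r, d_rho N, S_rho N (by omega : 2 ≤ N), d_q N (by omega : 1 ≤ N),
      S_q N (by omega : 2 ≤ N), d_s, S_s, d_t N (by omega : 2 ≤ N), S_t, S_e N (by omega : 2 ≤ N),
      dRow, sRow, vtx, eul', eul, v_e_zero, v_rho_zero, v_s_zero, smul_smul, smul_sub, smul_add,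
      smul_qsmul, smul_assoc, add_smul, sub_smul, mul_add, mul_sub, sub_mul, mul_assoc, D₀X₀, D₁X₁,
      D₀X₁, D₁X₀, X₁X₀, D₀X₀', D₁X₁', D₀X₁', D₁X₀', X₁X₀', D₁D₀, D₁D₀', add_mul]
    simp only [act_def]
    module

/-- `d S + S d = -(E - a - n)` at every generator. -/
theorem euler {N : ℕ} (hN : 2 ≤ N) (g : Gen) : EulerAt N g := by
  by_cases h : g.Valid N
  swap
  · simp [EulerAt, v_invalid N h]
  rcases g with i | i | ⟨j, i⟩ | ⟨j, i⟩ | i | i
  · obtain ⟨i, rfl⟩ := Nat.exists_eq_add_of_le' h.1; exact euler_e N i hN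
  · exact euler_r N i hN
  · obtain ⟨i, rfl⟩ := Nat.exists_eq_add_of_le' h.1
    fin_cases j
    · exact euler_rho_zero N i hN
    · exact euler_rho_one N i hN
  · fin_cases j
    · exact euler_q_zero N i hN
    · exact euler_q_one N i hN
  · obtain ⟨i, rfl⟩ := Nat.exists_eq_add_of_le' h.1; exact euler_s N i hN
  · exact euler_t N i hN

end Vale.Agent.P195.ResR
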