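import Vale.Agent.P195.ResR.Sums

/-!
# P195: the cocycle summed over the two steps of `d`

The sum over the middle generator is minus the symbol of `omRow`.
-/

noncomputable section

namespace Vale.Agent.P195.ResR

open Gen Polynomial

/-- `omegaPoly`, linear in the first operator. -/
def omL (b kg kf : ℕ) (f : Op) : Op →ₗ[ℚ] ℚ[X] where
  toFun c := if b = 0 then C ((sym kg c).coeff 0) * (sym kf f).divX
    else (sym kg c).divX * C ((sym kf f).coeff 0)
  map_add' c c' := by split_ifs <;> simp [divX_add, add_mul]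
  map_smul' r c := by
    split_ifs <;> simp [smul_eq_C_mul, divX_C_mul, mul_assoc]

theorem omL_apply (b kg kf : ℕ) (f c : Op) :
    omL b kg kf f c = if b = 0 then C ((sym kg c).coeff 0) * (sym kf f).divX
      else (sym kg c).divX * C ((sym kf f).coeff 0) := rfl

variable (N : ℕ)

/-- The sum of `omegaPoly` over the middle of the two steps, for a row at the source `g`. -/
def omSum (g h : Gen) : Row →ₗ[ℚ] ℚ[X] :=
  Finsupp.lsum ℚ fun m => omL m.vtx.2 (g.vtx.2 - m.vtx.2) (m.vtx.2 - h.vtx.2) (dRow N m h)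

theorem omSum_smul_v (g h m : Gen) (c : Op) :
    omSum N g h (c • v N m) =
      if m.Valid N then omL m.vtx.2 (g.vtx.2 - m.vtx.2) (m.vtx.2 - h.vtx.2) (dRow N m h) c
      else 0 := by
  unfold v
  split_ifs
  · rw [omSum, Finsupp.smul_single, smul_eq_mul, mul_one, Finsupp.lsum_single]
  · rw [smul_zero, map_zero]

theorem omSum_v (g h m : Gen) :
    omSum N g h (v N m) =
      if m.Valid N then omL m.vtx.2 (g.vtx.2 - m.vtx.2) (m.vtx.2 - h.vtx.2) (dRow N m h) 1
      else 0 := by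
  simpa using omSum_smul_v N g h m 1

/-! ### Symbols -/

theorem sym_F_zero {f : Op} {w : ℤ} (hf : f ∈ F w 0) : sym 1 f = 0 :=
  sym_eq_zero hf (by norm_num)

theorem s0_X₀ : sym 0 X₀ = 1 := by
  have h := sym_X₀_mul (w := 0) (K := 0) (f := 1) one_mem_F
  rwa [mul_one, sym_one] at h

theorem s0_X₁ : sym 0 X₁ = X := by
  have h := sym_X₁_mul (w := 0) (K := 0) (f := 1) one_mem_F
  rwa [mul_one, sym_one, mul_one] at h

theorem s1_one : sym 1 (1 : Op) = 0 := sym_F_zero one_mem_F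

theorem s1_D₀ : sym 1 D₀ = -X := by
  have h := sym_D₀_mul (w := 0) (K := 0) (f := 1) one_mem_F
  rwa [mul_one, sym_one, mul_one] at h

theorem s1_D₁ : sym 1 D₁ = 1 := by
  have h := sym_D₁_mul (w := 0) (K := 0) (f := 1) one_mem_F
  rwa [mul_one, sym_one] at h

theorem s1_D₀X₀ : sym 1 (D₀ * X₀) = -X := by
  rw [sym_D₀_mul (w := 1) (K := 0) (by simpa using X₀_mul_mem one_mem_F), s0_X₀, mul_one]

theorem s1_D₁X₀ : sym 1 (D₁ * X₀) = 1 := by
  rw [sym_D₁_mul (w := 1) (K := 0) (by simpa using X₀_mul_mem one_mem_F), s0_X₀]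

theorem s1_D₀X₁ : sym 1 (D₀ * X₁) = -(X * X) := by
  rw [sym_D₀_mul (w := 1) (K := 0) (by simpa using X₁_mul_mem one_mem_F), s0_X₁, neg_mul]

theorem s1_D₁X₁ : sym 1 (D₁ * X₁) = X := by
  rw [sym_D₁_mul (w := 1) (K := 0) (by simpa using X₁_mul_mem one_mem_F), s0_X₁]

theorem s1_X₀D₁ : sym 1 (X₀ * D₁) = 1 := by
  rw [sym_X₀_mul (w := -1) (K := 1) (by simpa using D₁_mul_mem one_mem_F), s1_D₁]

theorem s1_X₁D₁ : sym 1 (X₁ * D₁) = X := by
  rw [sym_X₁_mul (w := -1) (K := 1) (by simpa using D₁_mul_mem one_mem_F), s1_D₁, mul_one]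

theorem divX_neg' (p : ℚ[X]) : (-p).divX = -p.divX := by
  ext n; simp [coeff_divX]

theorem smul_v_apply (c : Op) (m h : Gen) :
    (c • v N m) h = if m = h ∧ h.Valid N then c else 0 := by
  unfold v
  by_cases e : m = h
  · subst e; split_ifs <;> simp_all
  · split_ifs <;> simp_all

theorem v_apply' (m h : Gen) : v N m h = if m = h ∧ h.Valid N then 1 else 0 := by
  simpa using smul_v_apply N 1 m h

set_option linter.unusedSimpArgs false

/-! ### The second step -/

theorem divX_X' : (X : ℚ[X]).divX = 1 := by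
  ext n; simp [coeff_divX, coeff_X, coeff_one, eq_comm]

theorem second_r (i l : ℕ) (hl : (e l).Valid N) :
    (sym 0 (dRow N (r i) (e l))).divX = if l = i then -1 else 0 := by
  simp only [dRow, Finsupp.sub_apply, smul_v_apply, Gen.e.injEq, hl, and_true, map_sub,
    apply_ite (sym 0), map_zero, s0_X₀, s0_X₁]
  split_ifs <;> first | omega | simp [divX_neg', divX_one, divX_X']

theorem second_rho (j : Fin 2) (i l : ℕ) (hl : (e l).Valid N) :
    (sym 1 (dRow N (rho j i) (e l))).coeff 0 = if j = 1 ∧ l = i + 1 then 1 else 0 := by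
  obtain rfl | rfl : j = 0 ∨ j = 1 := by omega
  all_goals
    simp only [dRow, Finsupp.add_apply, smul_v_apply, Gen.e.injEq, hl, and_true, map_add,
      map_smul, apply_ite (sym 1), map_zero, s1_D₀X₀, s1_D₁X₀, s1_one, true_and, zero_ne_one, false_and]
    split_ifs <;> first | omega | contradiction | simp

theorem second_q (j : Fin 2) (i l : ℕ) (hl : (r l).Valid N) :
    (sym 1 (dRow N (q j i) (r l))).coeff 0 = if j = 1 ∧ l = i + 1 then -1 else 0 := by
  obtain rfl | rfl : j = 0 ∨ j = 1 := by omega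
  all_goals
    rcases i with _ | i
    all_goals
      simp [dRow, smul_v_apply, v_apply', hl, apply_ite (sym 1), s1_D₀X₀, s1_D₁X₀, s1_D₀X₁,
        s1_D₁X₁, s1_one, coeff_sub, coeff_neg]
      split_ifs <;> first | omega | contradiction | simp

theorem second_s (i l : ℕ) : dRow N (s i) (r l) = 0 := by
  simp [dRow, smul_v_apply, v_apply']

theorem divX_XX : (X * X : ℚ[X]).divX = X := by
  ext n; simp [coeff_divX, coeff_X, eq_comm]

/-! ### The sums -/

theorem omSum_q (j : Fin 2) (i l : ℕ) (hg : (q j i).Valid N) (hh : (e l).Valid N) :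
    omSum N (q j i) (e l) (dRow N (q j i)) = -sym 0 (omRow N (q j i) (e l)) := by
  have hl := hh
  simp only [Valid] at hg hh
  obtain rfl | rfl : j = 0 ∨ j = 1 := by omega
  all_goals
    rcases i with _ | i
    all_goals
      simp [dRow, omRow, omSum_smul_v, omSum_v, Valid, vtx, omL_apply, second_r N _ _ hl,
        second_rho N _ _ _ hl, v_apply', smul_v_apply, s0_X₀, s0_X₁, s1_one, s1_D₀X₀, s1_D₁X₀,
        s1_D₀X₁, s1_D₁X₁, divX_neg', divX_X', apply_ite (sym 0)]
      try (split_ifs <;> first | omega | simp [sym_one, s0_X₀, s0_X₁, s1_one, s1_D₀X₀, s1_D₁X₀, s1_D₀X₁, s1_D₁X₁, s1_X₀D₁, s1_X₁D₁, divX_neg', divX_X', divX_XX, divX_one])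

theorem omSum_s (i l : ℕ) (hg : (s i).Valid N) (hh : (e l).Valid N) :
    omSum N (s i) (e l) (dRow N (s i)) = -sym 1 (omRow N (s i) (e l)) := by
  have hl := hh
  simp only [Valid] at hg hh
  simp [dRow, omRow, omSum_smul_v, omSum_v, Valid, vtx, omL_apply, second_rho N _ _ _ hl, v_apply',
    smul_v_apply, s1_one, s1_D₀X₀, s1_D₁X₀, s1_X₀D₁, divX_neg', divX_X', divX_one,
    apply_ite (sym 1)]
  try (split_ifs <;> first | omega | simp [sym_one, s0_X₀, s0_X₁, s1_one, s1_D₀X₀, s1_D₁X₀, s1_D₀X₁, s1_D₁X₁, s1_X₀D₁, s1_X₁D₁, divX_neg', divX_X', divX_XX, divX_one])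

theorem omSum_t (i l : ℕ) (hg : (t i).Valid N) (hh : (r l).Valid N) :
    omSum N (t i) (r l) (dRow N (t i)) = -sym 1 (omRow N (t i) (r l)) := by
  have hl := hh
  simp only [Valid] at hg hh
  rcases i with _ | i
  all_goals
    simp [dRow, omRow, omSum_smul_v, omSum_v, Valid, vtx, omL_apply, second_q N _ _ _ hl,
      second_s N, v_apply', smul_v_apply, s0_X₀, s0_X₁, s1_one, s1_D₀X₀, s1_D₁X₀, s1_D₀X₁,
      s1_D₁X₁, s1_X₀D₁, s1_X₁D₁, divX_neg', divX_X', divX_one, apply_ite (sym 1), smul_sub]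
    try (split_ifs <;> first | omega | simp [sym_one, s0_X₀, s0_X₁, s1_one, s1_D₀X₀, s1_D₁X₀, s1_D₀X₁, s1_D₁X₁, s1_X₀D₁, s1_X₁D₁, divX_neg', divX_X', divX_XX, divX_one])

end Vale.Agent.P195.ResR
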