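import Vale.Agent.P195.ResR.WLem
import Vale.Agent.P195.ResR.Square

/-!
# P195: sums over a middle level of products of two entries
-/

noncomputable section

namespace Vale.Agent.P195.ResR

open Res Polynomial

variable {N l : ℕ} {ι : Type} [Fintype ι]

theorem vV_snd (g : Gen) : ((vV g).2 : ℕ) = g.vtx.2 := by cases g <;> rfl

/-- The correction on copy `k`. -/
def eRow (N k : ℕ) (g : Gen) : Row := hRow N g + (k : ℚ) • gRow N g

theorem eRow_mem (k : ℕ) (g : Gen) : eRow N k g ∈ Typed g 1 :=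
  add_mem (hRow_mem N g) (Submodule.smul_mem _ _ (gRow_mem N g))

theorem eRow_lev (k : ℕ) (g : Gen) : eRow N k g ∈ Lev N (g.lev - 1) :=
  add_mem (hRow_lev g) fun h hh => by simp [gRow_lev g h hh]

theorem dArr_snd (k : ℕ) (g h : Gen) :
    (dArr N k g h).2 = first ⟨eRow N k g h, mem_entry (eRow_mem k g)⟩ := by
  show etaH N g h + (k : ℚ) • etaG N g h = _
  rw [etaH, etaG, ← map_smul, ← map_add]
  congr 1

/-- Composition of two entries, typed. -/
abbrev hc {g m h : Gen} (a : catA0.H (vV m) (vV g)) (b : catA0.H (vV h) (vV m)) :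
    Vale.Agent.P195.H (emb (vV h)) (emb (vV g)) :=
  hcomp (u := emb (vV h)) (v := emb (vV m)) (x := emb (vV g)) a b

theorem fst_sum_hc (E : Enum N l ι) {g h : Gen} (a : ∀ i, catA0.H (vV (E.gen i)) (vV g))
    (b : ∀ i, catA0.H (vV h) (vV (E.gen i))) {x : Row} {f : Gen → Row} (hx : x ∈ Lev N l)
    (ha : ∀ i, (a i).1.1 = x (E.gen i)) (hb : ∀ i, (b i).1.1 = f (E.gen i) h) :
    (∑ i, hc (a i) (b i)).1.1 = mat N f x h := by
  rw [← E.sum_mul hx f h, Prod.fst_sum, Submodule.coe_sum]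
  refine Finset.sum_congr rfl fun i _ => ?_
  rw [← ha i, ← hb i]
  exact congrArg (fun z => z.1.1) (hcomp_apply (u := emb (vV h)) (v := emb (vV (E.gen i))) (x := emb (vV g)) (a i) (b i))

/-- The sum of the cocycle over the two steps of `d`. -/
theorem cocy_sum (E : Enum N l ι) {g h : Gen} (hg : g.Valid N) (hgl : g.lev = l + 1)
    (hl : 1 ≤ l) (hh : h.Valid N) (hhl : h.lev + 1 = l) :
    ∑ i, cocy (u := emb (vV h)) (x := emb (vV g)) (dB N g (E.gen i)) (dB N (E.gen i) h) =
      first ⟨omRow N g h, F_le (by omega) (mem_entry (omRow_mem N g))⟩ := by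
  have hK : ∀ i, omegaPoly (dB N g (E.gen i)) (dB N (E.gen i) h) =
      omL (E.gen i).vtx.2 (g.vtx.2 - (E.gen i).vtx.2) ((E.gen i).vtx.2 - h.vtx.2)
        (dRow N (E.gen i) h) (dRow N g (E.gen i)) := fun i => by
    simp only [omegaPoly, omL_apply, sg, dB, od, Nat.cast_eq_zero, Int.toNat_sub,
      vV_snd]
  have hsum : ∑ i, omegaPoly (dB N g (E.gen i)) (dB N (E.gen i) h) =
      omSum N g h (dRow N g) := by
    rw [omSum, Finsupp.lsum_apply, E.sum_eq (x := dRow N g) (by simpa [hgl] using dRow_lev g) _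
      fun m => map_zero _]
    exact Finset.sum_congr rfl fun i _ => hK i
  simp only [cocy_apply]
  by_cases hc : (emb (vV h)).2 = 0 ∧ 0 < (emb (vV g)).2
  · simp only [if_pos hc, Finset.sum_neg_distrib, ← map_sum, hsum]
    rw [first_eq_iota (by simpa [sub_eq_add_neg] using mem_entry (h := h) (omRow_mem N g)),
      ← map_neg]
    congr 1
    simp only [vV_snd] at hc
    rcases g with i | i | ⟨j, i⟩ | ⟨j, i⟩ | i | i <;> simp only [Gen.lev] at hgl
    any_goals omega
    all_goals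
      rcases h with p | p | ⟨o, p⟩ | ⟨o, p⟩ | p | p <;> simp only [Gen.lev] at hhl
    any_goals omega
    any_goals (simp [Gen.vtx] at hc; done)
    · rw [omSum_q N j i p hg hh, neg_neg]; rfl
    · rw [omSum_s N i p hg hh, neg_neg]; rfl
    · rw [omSum_t N i p hg hh, neg_neg]; rfl
  · simp only [if_neg hc, Finset.sum_const_zero]
    simp only [vV_snd] at hc
    have : omRow N g h = 0 := by
      rcases g with i | i | ⟨j, i⟩ | ⟨j, i⟩ | i | i <;> simp only [Gen.lev] at hgl
      any_goals omega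
      all_goals
        rcases h with p | p | ⟨o, p⟩ | ⟨o, p⟩ | p | p <;> simp only [Gen.lev] at hhl
      any_goals omega
      any_goals (simp [Gen.vtx] at hc; done)
      simp only [omRow]
      split_ifs <;> simp [smul_v_apply, v_apply']
    simp only [this]
    exact (map_zero first).symm

theorem hc_apply {g m h : Gen} (a : catA0.H (vV m) (vV g)) (b : catA0.H (vV h) (vV m)) :
    hc a b = (mulB a.1 b.1, lmul a.1 b.2 + rmul b.1 a.2 + cocy a.1 b.1) :=
  hcomp_apply (u := emb (vV h)) (v := emb (vV m)) (x := emb (vV g)) a b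

theorem mat_mem' {g : Gen} {δ δ' : ℤ} (h : Gen) {y : Row} (hy : y ∈ Typed g δ) {f : Gen → Row}
    (hf : ∀ m, f m ∈ Typed m δ') (he : δ + δ' = 1) :
    mat N f y h ∈ F (wt (emb (vV h)) (emb (vV g))) (od (emb (vV h)) (emb (vV g)) + 1) :=
  he ▸ mem_entry (Typed_mat N f hy hf)

theorem mat_dd (hN : 2 ≤ N) {g : Gen} (hg : g.Valid N) : mat N (dRow N) (dRow N g) = 0 := by
  rw [← mat_v' (dRow N) hg]
  exact dd hN g

/-- Two steps of `d` on copy `k`. -/
theorem pair_dd (hN : 2 ≤ N) (E : Enum N l ι) (k : ℕ) {g h : Gen} (hg : g.Valid N)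
    (hgl : g.lev = l + 1) (hl : 1 ≤ l) (hh : h.Valid N) (hhl : h.lev + 1 = l) :
    ∑ i, hc (dArr N k g (E.gen i)) (dArr N k (E.gen i) h) =
      (0, first ⟨mat N (eRow N k) (dRow N g) h + mat N (dRow N) (eRow N k g) h + omRow N g h,
        add_mem (add_mem (mat_mem' h (dRow_mem N g) (eRow_mem k) rfl)
          (mat_mem' h (eRow_mem k g) (dRow_mem N) rfl))
          (F_le (by omega) (mem_entry (omRow_mem N g)))⟩) := by
  have hd : dRow N g ∈ Lev N l := by simpa [hgl] using dRow_lev (N := N) g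
  have he : eRow N k g ∈ Lev N l := by simpa [hgl] using eRow_lev (N := N) k g
  refine Prod.ext (Subtype.ext ?_) ?_
  · rw [fst_sum_hc E _ _ hd (fun i => rfl) (fun i => rfl), mat_dd hN hg]
    rfl
  · rw [Prod.snd_sum]
    simp only [hc_apply, Finset.sum_add_distrib, dArr_snd]
    rw [show ∑ i, cocy (dArr N k g (E.gen i)).1 (dArr N k (E.gen i) h).1 = _ from
      cocy_sum E hg hgl hl hh hhl]
    simp only [dArr, first_lmul, first_rmul]
    rw [first_sum _ _ ⟨_, mat_mem' h (dRow_mem N g) (eRow_mem k) rfl⟩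
        (E.sum_mul hd (eRow N k) h),
      first_sum _ _ ⟨_, mat_mem' h (eRow_mem k g) (dRow_mem N) rfl⟩ (E.sum_mul he (dRow N) h),
      ← map_add, ← map_add]
    rfl

theorem pair_psi_th (E : Enum N l ι) (k : ℕ) {g h : Gen} (hgl : g.lev + 1 = l) :
    ∑ i, hc (psiArr N g (E.gen i)) (thArr N k (E.gen i) h) =
      (0, ((k : ℚ) + 1) • sigma N ⟨mat N (thRow N) (sRow N g) h,
        mat_mem' h (sRow_mem N g) (thRow_mem N) rfl⟩) := by
  have hs : sRow N g ∈ Lev N l := hgl ▸ sRow_lev g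
  refine Prod.ext ?_ ?_
  · rw [Prod.fst_sum]
    exact Finset.sum_eq_zero fun i _ => by
      rw [hc_apply]; exact Subtype.ext (zero_mul _)
  · rw [Prod.snd_sum]
    simp only [hc_apply]
    simp only [psiArr, thArr, map_zero, LinearMap.zero_apply, zero_add, add_zero, map_smul,
      LinearMap.smul_apply, smul_zero, rmul_sigma]
    rw [← Finset.smul_sum, sigma_sum N _ _ ⟨_, mat_mem' h (sRow_mem N g) (thRow_mem N) rfl⟩
      (E.sum_mul hs (thRow N) h)]

theorem pair_th_psi (E : Enum N 0 ι) (k : ℕ) {g h : Gen} :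
    ∑ i, hc (thArr N k g (E.gen i)) (psiArr N (E.gen i) h) =
      (0, ((k : ℚ) + 1) • sigma N ⟨mat N (sRow N) (thRow N g) h,
        mat_mem' h (thRow_mem N g) (sRow_mem N) rfl⟩) := by
  refine Prod.ext ?_ ?_
  · rw [Prod.fst_sum]
    exact Finset.sum_eq_zero fun i _ => by
      rw [hc_apply]; exact Subtype.ext (mul_zero _)
  · rw [Prod.snd_sum]
    simp only [hc_apply]
    simp only [psiArr, thArr, map_zero, LinearMap.zero_apply, zero_add, add_zero, map_smul,
      LinearMap.smul_apply, smul_zero, lmul_sigma]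
    rw [← Finset.smul_sum, sigma_sum N _ _ ⟨_, mat_mem' h (thRow_mem N g) (sRow_mem N) rfl⟩
      (E.sum_mul (thRow_lev g) (sRow N) h)]

theorem pair_psi_d (E : Enum N l ι) (k : ℕ) {g h : Gen} (hgl : g.lev + 1 = l) :
    ∑ i, hc (psiArr N g (E.gen i)) (dArr N k (E.gen i) h) =
      (0, sigma N ⟨mat N (dRow N) (sRow N g) h,
        mat_mem' h (sRow_mem N g) (dRow_mem N) rfl⟩) := by
  have hs : sRow N g ∈ Lev N l := hgl ▸ sRow_lev g
  refine Prod.ext ?_ ?_
  · rw [Prod.fst_sum]
    exact Finset.sum_eq_zero fun i _ => by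
      rw [hc_apply]; exact Subtype.ext (zero_mul _)
  · rw [Prod.snd_sum]
    simp only [hc_apply]
    simp only [psiArr, dArr, map_zero, LinearMap.zero_apply, zero_add, add_zero, rmul_sigma]
    rw [sigma_sum N _ _ ⟨_, mat_mem' h (sRow_mem N g) (dRow_mem N) rfl⟩
      (E.sum_mul hs (dRow N) h)]

theorem pair_d_psi (E : Enum N l ι) (k : ℕ) {g h : Gen} (hgl : g.lev = l + 1) :
    ∑ i, hc (dArr N k g (E.gen i)) (psiArr N (E.gen i) h) =
      (0, sigma N ⟨mat N (sRow N) (dRow N g) h,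
        mat_mem' h (dRow_mem N g) (sRow_mem N) rfl⟩) := by
  have hd : dRow N g ∈ Lev N l := by simpa [hgl] using dRow_lev (N := N) g
  refine Prod.ext ?_ ?_
  · rw [Prod.fst_sum]
    exact Finset.sum_eq_zero fun i _ => by
      rw [hc_apply]; exact Subtype.ext (mul_zero _)
  · rw [Prod.snd_sum]
    simp only [hc_apply]
    simp only [psiArr, dArr, map_zero, LinearMap.zero_apply, zero_add, add_zero, lmul_sigma]
    rw [sigma_sum N _ _ ⟨_, mat_mem' h (dRow_mem N g) (sRow_mem N) rfl⟩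
      (E.sum_mul hd (sRow N) h)]

end Vale.Agent.P195.ResR
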