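import Vale.Agent.P195.ResR.Pairs

/-!
# P195: the squares of the glued differential at one pair of generators
-/

noncomputable section

namespace Vale.Agent.P195.ResR

open Res Gen

set_option linter.unusedSimpArgs false

variable {N : ℕ}

theorem mat_eRow (k : ℕ) (y : Row) :
    mat N (eRow N k) y = mat N (hRow N) y + (k : ℚ) • mat N (gRow N) y := by
  induction y using Finsupp.induction_linear with
  | zero => simp
  | add a b ha hb => rw [map_add, map_add, map_add, ha, hb, smul_add]; abel
  | single m c =>
    simp only [mat, Finsupp.linearCombination_single]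
    split_ifs
    · rw [eRow, smul_add, smul_qsmul]
    · simp

/-- `Th S` has order one below the top. -/
theorem thS_mem (hN : 2 ≤ N) {g : Gen} (hg : g.Valid N) (hl : g.lev = 2) :
    mat N (thRow N) (sRow N g) ∈ Typed g (-1) := by
  have h0 := Th_t N hN
  rcases g with i | i | ⟨j, i⟩ | ⟨j, i⟩ | i | i <;> simp only [lev] at hl
  any_goals omega
  any_goals (obtain rfl | rfl : j = 0 ∨ j = 1 := by omega)
  · simp only [sRow, map_neg, h0, thRow]
    split_ifs
    · rw [neg_neg]
      refine smul_v_mem N ?_
      norm_num [dw, dk, vtx]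
      exact X₁_mem' le_rfl
    · simp
  · simp only [sRow, thRow, apply_ite (mat N (thRow N)), map_zero, h0]
    split_ifs
    · exact zero_mem _
    · refine neg_mem (smul_v_mem N ?_)
      norm_num [dw, dk, vtx]
      exact X₁_mem' le_rfl
    · exact zero_mem _
  · simp only [sRow, map_smul, h0, thRow]
    rw [if_neg (show i ≠ 0 by simp only [Valid] at hg; omega), smul_zero]
    exact zero_mem _

/-- `S Th` has order one below the top. -/
theorem sTh_mem (hN : 2 ≤ N) {g : Gen} (hl : g.lev = 3) :
    mat N (sRow N) (thRow N g) ∈ Typed g (-1) := by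
  rcases g with i | i | ⟨j, i⟩ | ⟨j, i⟩ | i | i <;> simp only [lev] at hl
  any_goals omega
  simp only [thRow, apply_ite (mat N (sRow N)), map_neg, map_smul, map_zero,
    S_e N hN one_ne_zero, sRow, if_true, smul_sub, smul_smul]
  split_ifs
  · repeat' first
      | with_reducible refine sub_mem ?_ ?_
      | with_reducible refine neg_mem ?_
      | with_reducible refine smul_v_mem N ?_
    all_goals norm_num [dw, dk, vtx]
    · exact X₁D₁_mem
    · exact X₁_mem' le_rfl
    · exact X₁_mem' le_rfl
    · simpa using X₁_mul_mem (D₀_mem' (le_refl (1 : ℤ)))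
  · exact zero_mem _

/-- The coefficient of a copy in the square of the differential. -/
theorem total (hN : 2 ≤ N) (k : ℕ) {g : Gen} (hg : g.Valid N) (hl : 2 ≤ g.lev) :
    mat N (eRow N k) (dRow N g) + mat N (dRow N) (eRow N k g) + omRow N g
      + ((k : ℚ) • mat N (thRow N) (sRow N g) + ((k : ℚ) + 1) • mat N (sRow N) (thRow N g)) =
      lowRow N g := by
  obtain ⟨hc, hlin⟩ := const_lin hN g hg hl
  simp only [ConstAt, LinAt, d, S, H, G, Th, mat_v' _ hg] at hc hlin
  rw [mat_eRow, eRow, map_add, LinearMap.map_smul_of_tower]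
  linear_combination (norm := module) hc + (k : ℚ) • hlin

theorem euler_row (hN : 2 ≤ N) {g : Gen} (hg : g.Valid N) :
    mat N (dRow N) (sRow N g) + mat N (sRow N) (dRow N g) =
      -(eul' (g.vtx.1 - (N + 1)) • v N g) := by
  have h := euler hN g
  simp only [EulerAt, d, S, mat_v' _ hg] at h
  exact h

theorem first_dd {g h : Gen} {X : Op}
    (hX : X ∈ F (wt (emb (vV h)) (emb (vV g))) (od (emb (vV h)) (emb (vV g)) + 1))
    (e : X = lowRow N g h) : first ⟨X, hX⟩ = 0 := by
  subst e
  exact first_low _ (mem_entry (lowRow_mem N g))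

theorem sigma_euler_row (hN : 2 ≤ N) {g h : Gen} (hg : g.Valid N) {X : Op}
    (hX : X ∈ F (wt (emb (vV h)) (emb (vV g))) (od (emb (vV h)) (emb (vV g)) + 1))
    (e : X = (mat N (dRow N) (sRow N g) + mat N (sRow N) (dRow N g)) h) :
    sigma N ⟨X, hX⟩ = 0 := by
  rw [euler_row hN hg, Finsupp.neg_apply, smul_v_apply] at e
  by_cases hh : g = h
  · subst hh
    refine sigma_euler N _ ?_
    rw [if_pos ⟨rfl, hg⟩] at e
    rw [show (emb (vV g)).1 + nn N = g.vtx.1 - (N + 1) by rw [emb_vV]; simp only [nn]; ring]
    exact e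
  · have e0 : X = 0 := by rw [e]; simp [hh]
    subst e0
    exact map_zero _

end Vale.Agent.P195.ResR
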