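import Vale.Agent.P195.ResR.OmegaSum

/-!
# P195: classes of triples of low order

`first` kills what is two orders below the top, and `sigma` agrees with `first` one order below the
top.
-/

noncomputable section

namespace Vale.Agent.P195.ResR

open Res

variable {u v x : Vtx} (N : ℕ)

theorem first_sum {ι : Type} (s : Finset ι) (P : ι → F (wt u v) (od u v + 1))
    (Q : F (wt u v) (od u v + 1)) (h : ∑ i ∈ s, (P i).1 = Q.1) :
    ∑ i ∈ s, first (P i) = first Q := by
  rw [← map_sum]
  exact congrArg first (Subtype.ext (by simpa using h))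

theorem first_low {P : Op} (h' : P ∈ F (wt u v) (od u v + 1))
    (h : P ∈ F (wt u v) (od u v - 2)) : first ⟨P, h'⟩ = 0 := by
  by_cases ho : 1 ≤ od u v
  · rw [first_eq_iota (F_le (by omega) h), sym_eq_zero h (by omega), map_zero]
  · have : P = 0 := (Submodule.mem_bot ℚ).1 (F_eq_bot (Or.inl (show od u v - 2 < 0 by omega)) ▸ h)
    subst this
    exact map_zero first

theorem sigma_apply (X : F (wt u v) (od u v + 1)) :
    sigma N X = cls u v (fun i => ((nn N : ℚ) ^ (i : ℕ)) • X) := rfl

/-- One order below the top only the first component matters. -/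
theorem sigma_eq_first (X : F (wt u v) (od u v + 1)) (h : X.1 ∈ F (wt u v) (od u v - 1)) :
    sigma N X = first X := by
  have h1 : X.1 * eul' u.1 ∈ B u v := by
    have e := mul_mem_F h (eul'_mem u.1)
    simp only [zero_add] at e
    exact F_le (by omega) e
  have h0 : X.1 ∈ B u v := F_le (by omega) h
  rw [sigma_apply, first, LinearMap.comp_apply, ← sub_eq_zero, ← map_sub]
  refine cls_eq_zero (q := ![0, 0, -(nn N : ℚ) • ⟨X.1, h0⟩,
    -(nn N : ℚ) • ⟨X.1 * eul' u.1, h1⟩ - ((nn N : ℚ) ^ 2) • ⟨X.1, h0⟩]) fun i => ?_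
  fin_cases i <;> simp <;> module

theorem lmul_sigma (g : B v x) (X : F (wt u v) (od u v + 1)) :
    lmul g (sigma N X) = sigma N ⟨g.1 * X.1, mul_mem_B_succ_left g.2 X.2⟩ := by
  rw [sigma_apply, lmul_cls, sigma_apply]
  congr 1
  ext i : 2
  simp [lmulTri]

theorem rmul_sigma (f : B u v) (X : F (wt v x) (od v x + 1)) :
    rmul f (sigma N X) = sigma N ⟨X.1 * f.1, mul_mem_B_succ_right X.2 f.2⟩ := by
  rw [sigma_apply, rmul_cls, sigma_apply]
  congr 1

theorem sigma_sum {ι : Type} (s : Finset ι) (P : ι → F (wt u v) (od u v + 1))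
    (Q : F (wt u v) (od u v + 1)) (h : ∑ i ∈ s, (P i).1 = Q.1) :
    ∑ i ∈ s, sigma N (P i) = sigma N Q := by
  rw [← map_sum]
  exact congrArg (sigma N) (Subtype.ext (by simpa using h))

/-- `sigma` kills `E' - n` at a vertex. -/
theorem sigma_euler (X : F (wt u u) (od u u + 1))
    (h : X.1 = -eul' (u.1 + nn N)) : sigma N X = 0 := by
  have h1 : (1 : Op) ∈ B u u := (oneB u).2
  have e : eul' (u.1 + nn N) = eul' u.1 - (nn N : ℚ) • (1 : Op) := by
    simp only [eul']
    push_cast
    module
  rw [sigma_apply]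
  refine cls_eq_zero (q := fun j => -((nn N : ℚ) ^ (j : ℕ)) • ⟨1, h1⟩) fun i => ?_
  simp only [SetLike.val_smul, h, e, Fin.val_castSucc, Fin.val_succ, smul_mul_assoc, one_mul,
    pow_succ]
  module

theorem Typed_mat (f : Gen → Row) {g : Gen} {δ δ' : ℤ} {y : Row} (hy : y ∈ Typed g δ)
    (hf : ∀ m, f m ∈ Typed m δ') : mat N f y ∈ Typed g (δ + δ') := fun h => by
  rw [mat, Finsupp.linearCombination_apply, Finsupp.sum, Finsupp.finsetSum_apply]
  refine Submodule.sum_mem _ fun m _ => ?_
  split_ifs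
  · have e := mul_mem_F (hy m) (hf m h)
    rwa [show dw h m + dw m g = dw h g by simp only [dw]; ring,
      show dk h m + δ' + (dk m g + δ) = dk h g + (δ + δ') by simp only [dk]; ring] at e
  · simp

end Vale.Agent.P195.ResR
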